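import Mathlib

/-!
Abstract "group lemma" for the covering-duality counterexample (row 71).
-/

set_option autoImplicit false

open Finset
open scoped BigOperators Classical

namespace Crest.Agent.R071

/-- real indicator of a proposition -/
noncomputable def ib (p : Prop) : ℝ := if p then 1 else 0

lemma ib_nonneg (p : Prop) : 0 ≤ ib p := by unfold ib; split_ifs <;> norm_num
lemma ib_le_one (p : Prop) : ib p ≤ 1 := by unfold ib; split_ifs <;> norm_num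
lemma ib_pos {p : Prop} (h : p) : ib p = 1 := by unfold ib; simp [h]
lemma ib_neg {p : Prop} (h : ¬ p) : ib p = 0 := by unfold ib; simp [h]
lemma ib_and (p q : Prop) : ib (p ∧ q) = ib p * ib q := by
  unfold ib; by_cases hp : p <;> by_cases hq : q <;> simp [hp, hq]
lemma ib_mono {p q : Prop} (h : p → q) : ib p ≤ ib q := by
  by_cases hp : p
  · rw [ib_pos hp, ib_pos (h hp)]
  · rw [ib_neg hp]; exact ib_nonneg _
lemma ib_congr {p q : Prop} (h : p ↔ q) : ib p = ib q := by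
  rw [propext h]
lemma ib_mul_self (p : Prop) : ib p * ib p = ib p := by
  unfold ib; split_ifs <;> norm_num

lemma sq_expect_le {α : Type*} [Fintype α] [Nonempty α] (f : α → ℝ) :
    (𝔼 a, f a) ^ 2 ≤ 𝔼 a, f a ^ 2 := by
  have h := expect_mul_sq_le_sq_mul_sq (univ : Finset α) f (fun _ => (1 : ℝ))
  simpa [Fintype.expect_const] using h

lemma expect_prod2 {α β : Type*} [Fintype α] [Fintype β] (f : α × β → ℝ) :
    𝔼 x : α × β, f x = 𝔼 a, 𝔼 b, f (a, b) := by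
  rw [← univ_product_univ, expect_product]

/-- Stability step: sampling `r` tests. -/
lemma stab {S ι Ω : Type*} [Fintype S] [Fintype ι] [Fintype Ω] [Nonempty Ω]
    (s : S → ι → ℝ) (κ : ℝ)
    (hκ : ∀ c : ι → ℝ, (∀ i, 0 ≤ c i ∧ c i ≤ 1) → 𝔼 σ, |∑ i, s σ i * c i| ≤ κ)
    (a : ι → Ω → ℝ) (ha : ∀ i ω, 0 ≤ a i ω ∧ a i ω ≤ 1) (b : S → Ω → Prop) (r : ℕ) :
    𝔼 σ, ∑ i, s σ i * (1 - (1 - 𝔼 ω, a i ω * ib (b σ ω)) ^ r) ≤ 2 ^ r * κ := by
  -- c i ω β
  let c : (Fin r → Ω) → (Fin r → Bool) → ι → ℝ := fun ω β i =>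
    1 - ∏ l, (1 - a i (ω l) * ib (β l = true))
  have hc : ∀ ω β i, 0 ≤ c ω β i ∧ c ω β i ≤ 1 := by
    intro ω β i
    have h1 : ∀ l, 0 ≤ 1 - a i (ω l) * ib (β l = true) ∧ 1 - a i (ω l) * ib (β l = true) ≤ 1 := by
      intro l
      have := ha i (ω l)
      have h2 := ib_nonneg (β l = true)
      have h3 := ib_le_one (β l = true)
      constructor <;> nlinarith
    have h2 : 0 ≤ ∏ l, (1 - a i (ω l) * ib (β l = true)) := prod_nonneg fun l _ => (h1 l).1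
    have h3 : ∏ l, (1 - a i (ω l) * ib (β l = true)) ≤ 1 :=
      prod_le_one (fun l _ => (h1 l).1) (fun l _ => (h1 l).2)
    simp only [c]
    constructor <;> linarith
  have key : ∀ σ i, (1 - (1 - 𝔼 ω, a i ω * ib (b σ ω)) ^ r)
      = 𝔼 ω : Fin r → Ω, c ω (fun l => decide (b σ (ω l))) i := by
    intro σ i
    have h1 : (1 - 𝔼 ω, a i ω * ib (b σ ω)) = 𝔼 ω, (1 - a i ω * ib (b σ ω)) := by
      rw [expect_sub_distrib, Fintype.expect_const]
    rw [h1, expect_pow, Fintype.piFinset_univ]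
    simp only [c]
    rw [expect_sub_distrib, Fintype.expect_const]
    simp
  have h2 : ∀ σ, ∑ i, s σ i * (1 - (1 - 𝔼 ω, a i ω * ib (b σ ω)) ^ r)
      ≤ 𝔼 ω : Fin r → Ω, ∑ β : Fin r → Bool, |∑ i, s σ i * c ω β i| := by
    intro σ
    simp_rw [key, mul_expect]
    rw [← expect_sum_comm]
    refine expect_le_expect fun ω _ => ?_
    refine (le_abs_self _).trans ?_
    exact single_le_sum (f := fun β => |∑ i, s σ i * c ω β i|) (fun β _ => abs_nonneg _)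
      (mem_univ (fun l => decide (b σ (ω l))))
  refine (expect_le_expect fun σ _ => h2 σ).trans ?_
  rw [expect_comm]
  refine expect_le univ_nonempty fun ω _ => ?_
  rw [expect_sum_comm]
  refine (sum_le_sum fun β _ => hκ (c ω β) (hc ω β)).trans ?_
  simp

/-- The test functions. -/
noncomputable def aa {S ι V : Type*} (safe : ι → ι → Prop) (φ : ι → V → ℝ)
    (E : S → ι → Set V) (i : ι) (ω : ι × V × S) : ℝ :=
  ib (safe i ω.1) * φ i ω.2.1 * ib (ω.2.1 ∈ E ω.2.2 i) * ib (ω.2.1 ∈ E ω.2.2 ω.1)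

/-- The stable score. -/
noncomputable def Theta {S ι V : Type*} [Fintype S] [Fintype ι] [Fintype V]
    (safe : ι → ι → Prop) (φ : ι → V → ℝ) (E : S → ι → Set V) (σ : S) (i : ι) : ℝ :=
  𝔼 ω : ι × V × S, aa safe φ E i ω * ib (ω.2.1 ∈ E σ ω.1)

lemma aa_bounds {S ι V : Type*} (safe : ι → ι → Prop) (φ : ι → V → ℝ)
    (hφ : ∀ i v, 0 ≤ φ i v ∧ φ i v ≤ 1)
    (E : S → ι → Set V) (i : ι) (ω : ι × V × S) :
    0 ≤ aa safe φ E i ω ∧ aa safe φ E i ω ≤ 1 := by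
  unfold aa
  have h1 := ib_nonneg (safe i ω.1)
  have h2 := ib_le_one (safe i ω.1)
  have h3 := ib_nonneg (ω.2.1 ∈ E ω.2.2 i)
  have h4 := ib_le_one (ω.2.1 ∈ E ω.2.2 i)
  have h5 := ib_nonneg (ω.2.1 ∈ E ω.2.2 ω.1)
  have h6 := ib_le_one (ω.2.1 ∈ E ω.2.2 ω.1)
  have h7 := hφ i ω.2.1
  refine ⟨mul_nonneg (mul_nonneg (mul_nonneg h1 h7.1) h3) h5, ?_⟩
  apply mul_le_one₀ _ h5 h6
  apply mul_le_one₀ _ h3 h4
  exact mul_le_one₀ h2 h7.1 h7.2

lemma Theta_bounds {S ι V : Type*} [Fintype S] [Fintype ι] [Fintype V]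
    [Nonempty S] [Nonempty ι] [Nonempty V]
    (safe : ι → ι → Prop) (φ : ι → V → ℝ) (hφ : ∀ i v, 0 ≤ φ i v ∧ φ i v ≤ 1)
    (E : S → ι → Set V) (σ : S) (i : ι) :
    0 ≤ Theta safe φ E σ i ∧ Theta safe φ E σ i ≤ 1 := by
  unfold Theta
  constructor
  · exact expect_nonneg fun ω _ => mul_nonneg (aa_bounds safe φ hφ E i ω).1 (ib_nonneg _)
  · exact expect_le univ_nonempty fun ω _ =>
      mul_le_one₀ (aa_bounds safe φ hφ E i ω).2 (ib_nonneg _) (ib_le_one _)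

/-- Positivity step: few good rows have a small score. -/
lemma few_bad {S ι V : Type*} [Fintype S] [Fintype ι] [Fintype V]
    [Nonempty S] [Nonempty ι] [Nonempty V]
    (safe : ι → ι → Prop) (hsafe : ∀ i j, safe i j ∨ safe j i)
    (φ : ι → V → ℝ) (hφ : ∀ i v, 0 ≤ φ i v ∧ φ i v ≤ 1)
    (E : S → ι → Set V) (P : S → ι → Prop) (ε γ : ℝ) (hε : 0 < ε) (hγ : 0 < γ)
    (hP : ∀ σ i, P σ i → ε ≤ 𝔼 v, φ i v * ib (v ∈ E σ i)) :
    𝔼 σ, 𝔼 i, ib (P σ i ∧ Theta safe φ E σ i < γ ^ 3 * ε ^ 4 / 2) ≤ γ := by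
  set θ := γ ^ 3 * ε ^ 4 / 2 with hθ
  set B : S → ι → Prop := fun σ i => P σ i ∧ Theta safe φ E σ i < θ with hB
  set β := 𝔼 σ, 𝔼 i, ib (B σ i) with hβ
  let F : S → ι → V → ℝ := fun σ i v => φ i v * ib (v ∈ E σ i) * ib (B σ i)
  have hF0 : ∀ σ i v, 0 ≤ F σ i v := fun σ i v =>
    mul_nonneg (mul_nonneg (hφ i v).1 (ib_nonneg _)) (ib_nonneg _)
  have hβ0 : 0 ≤ β := expect_nonneg fun σ _ => expect_nonneg fun i _ => ib_nonneg _
  -- upper bound on Q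
  have hQ1 : 𝔼 σ, 𝔼 i, ib (B σ i) * Theta safe φ E σ i ≤ β * θ := by
    rw [hβ, expect_mul]
    refine expect_le_expect fun σ _ => ?_
    rw [expect_mul]
    refine expect_le_expect fun i _ => ?_
    by_cases h : B σ i
    · rw [ib_pos h]; linarith [h.2]
    · rw [ib_neg h]; simp
  -- g
  let g : ι → ι → V → ℝ := fun i j v => 𝔼 σ, F σ i v * F σ j v
  have hgsymm : ∀ i j v, g i j v = g j i v := fun i j v =>
    expect_congr rfl fun σ _ => mul_comm _ _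
  have hQ2 : 𝔼 i, 𝔼 j, 𝔼 v, ib (safe i j) * g i j v ^ 2
      ≤ 𝔼 σ, 𝔼 i, ib (B σ i) * Theta safe φ E σ i := by
    conv_rhs => rw [expect_comm]
    refine expect_le_expect fun i _ => ?_
    unfold Theta
    simp_rw [mul_expect, expect_prod2]
    conv_rhs => rw [expect_comm]
    refine expect_le_expect fun j _ => ?_
    conv_rhs => rw [expect_comm]
    refine expect_le_expect fun v _ => ?_
    rw [sq]
    simp only [g]
    rw [Fintype.expect_mul_expect, mul_expect]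
    refine expect_le_expect fun σ _ => ?_
    rw [mul_expect]
    refine expect_le_expect fun σ' _ => ?_
    simp only [aa, F]
    have a1 := hφ i v
    have a2 := hφ j v
    have e1 : φ i v * ib (v ∈ E σ i) * ib (B σ i) * (φ j v * ib (v ∈ E σ j) * ib (B σ j))
        ≤ ib (B σ i) * ib (v ∈ E σ j) := by
      have : φ i v * ib (v ∈ E σ i) * ib (B σ i) * (φ j v * ib (v ∈ E σ j) * ib (B σ j))
          = (ib (B σ i) * ib (v ∈ E σ j)) * (φ i v * ib (v ∈ E σ i) * (φ j v * ib (B σ j))) := by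
        ring
      rw [this]
      refine mul_le_of_le_one_right (mul_nonneg (ib_nonneg _) (ib_nonneg _)) ?_
      exact mul_le_one₀ (mul_le_one₀ a1.2 (ib_nonneg _) (ib_le_one _))
        (mul_nonneg a2.1 (ib_nonneg _)) (mul_le_one₀ a2.2 (ib_nonneg _) (ib_le_one _))
    have e2 : φ i v * ib (v ∈ E σ' i) * ib (B σ' i) * (φ j v * ib (v ∈ E σ' j) * ib (B σ' j))
        ≤ φ i v * ib (v ∈ E σ' i) * ib (v ∈ E σ' j) := by
      have : φ i v * ib (v ∈ E σ' i) * ib (B σ' i) * (φ j v * ib (v ∈ E σ' j) * ib (B σ' j))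
          = (φ i v * ib (v ∈ E σ' i) * ib (v ∈ E σ' j)) *
            (ib (B σ' i) * (φ j v * ib (B σ' j))) := by
        ring
      rw [this]
      refine mul_le_of_le_one_right
        (mul_nonneg (mul_nonneg a1.1 (ib_nonneg _)) (ib_nonneg _)) ?_
      exact mul_le_one₀ (ib_le_one _)
        (mul_nonneg a2.1 (ib_nonneg _)) (mul_le_one₀ a2.2 (ib_nonneg _) (ib_le_one _))
    have e3 := mul_le_mul e1 e2 (mul_nonneg (hF0 σ' i v) (hF0 σ' j v))
      (mul_nonneg (ib_nonneg _) (ib_nonneg _))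
    have e4 := mul_le_mul_of_nonneg_left e3 (ib_nonneg (safe i j))
    refine e4.trans (le_of_eq ?_)
    ring
  have hQ3 : (𝔼 i, 𝔼 j, 𝔼 v, g i j v ^ 2)
      ≤ 2 * 𝔼 i, 𝔼 j, 𝔼 v, ib (safe i j) * g i j v ^ 2 := by
    have e1 : 𝔼 i, 𝔼 j, 𝔼 v, ib (safe j i) * g i j v ^ 2
        = 𝔼 i, 𝔼 j, 𝔼 v, ib (safe i j) * g i j v ^ 2 := by
      rw [expect_comm]
      refine expect_congr rfl fun i _ => expect_congr rfl fun j _ => expect_congr rfl fun v _ => ?_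
      rw [hgsymm]
    rw [two_mul]
    nth_rewrite 1 [← e1]
    simp_rw [← expect_add_distrib]
    refine expect_le_expect fun i _ => expect_le_expect fun j _ => expect_le_expect fun v _ => ?_
    have : 1 ≤ ib (safe j i) + ib (safe i j) := by
      rcases hsafe i j with h | h
      · rw [ib_pos h]; linarith [ib_nonneg (safe j i)]
      · rw [ib_pos h]; linarith [ib_nonneg (safe i j)]
    nlinarith [sq_nonneg (g i j v)]
  have hQ4 : (𝔼 i, 𝔼 j, 𝔼 v, g i j v) ^ 2 ≤ 𝔼 i, 𝔼 j, 𝔼 v, g i j v ^ 2 := by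
    refine (sq_expect_le _).trans (expect_le_expect fun i _ => ?_)
    refine (sq_expect_le _).trans (expect_le_expect fun j _ => ?_)
    exact sq_expect_le _
  have hQ5 : (𝔼 σ, 𝔼 v, 𝔼 i, F σ i v) ^ 2 ≤ 𝔼 i, 𝔼 j, 𝔼 v, g i j v := by
    have e1 : 𝔼 i, 𝔼 j, 𝔼 v, g i j v = 𝔼 σ, 𝔼 v, (𝔼 i, F σ i v) ^ 2 := by
      simp_rw [sq, Fintype.expect_mul_expect]
      simp only [g]
      calc 𝔼 i, 𝔼 j, 𝔼 v, 𝔼 σ, F σ i v * F σ j v
          = 𝔼 i, 𝔼 j, 𝔼 σ, 𝔼 v, F σ i v * F σ j v :=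
            expect_congr rfl fun i _ => expect_congr rfl fun j _ => expect_comm _ _ _
        _ = 𝔼 i, 𝔼 σ, 𝔼 j, 𝔼 v, F σ i v * F σ j v :=
            expect_congr rfl fun i _ => expect_comm _ _ _
        _ = 𝔼 σ, 𝔼 i, 𝔼 j, 𝔼 v, F σ i v * F σ j v := expect_comm _ _ _
        _ = 𝔼 σ, 𝔼 i, 𝔼 v, 𝔼 j, F σ i v * F σ j v :=
            expect_congr rfl fun σ _ => expect_congr rfl fun i _ => expect_comm _ _ _
        _ = 𝔼 σ, 𝔼 v, 𝔼 i, 𝔼 j, F σ i v * F σ j v :=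
            expect_congr rfl fun σ _ => expect_comm _ _ _
    rw [e1]
    refine (sq_expect_le _).trans (expect_le_expect fun σ _ => ?_)
    exact sq_expect_le _
  have hQ6 : β * ε ≤ 𝔼 σ, 𝔼 v, 𝔼 i, F σ i v := by
    rw [hβ, expect_mul]
    refine expect_le_expect fun σ _ => ?_
    rw [expect_comm, expect_mul]
    refine expect_le_expect fun i _ => ?_
    simp only [F]
    rw [← expect_mul]
    by_cases h : B σ i
    · rw [ib_pos h]; have := hP σ i h.1; linarith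
    · rw [ib_neg h]; simp
  have hβε : 0 ≤ β * ε := mul_nonneg hβ0 hε.le
  have h7 : (β * ε) ^ 2 ≤ 𝔼 i, 𝔼 j, 𝔼 v, g i j v :=
    (pow_le_pow_left₀ hβε hQ6 2).trans hQ5
  have h8 : ((β * ε) ^ 2) ^ 2 ≤ 2 * (β * θ) := by
    refine (pow_le_pow_left₀ (sq_nonneg _) h7 2).trans (hQ4.trans (hQ3.trans ?_))
    linarith
  by_contra hcon
  push Not at hcon
  have hβpos : 0 < β := hγ.trans hcon
  have h9 : γ ^ 3 < β ^ 3 := pow_lt_pow_left₀ hcon hγ.le (by norm_num)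
  have h10 : ((β * ε) ^ 2) ^ 2 = β * (β ^ 3 * ε ^ 4) := by ring
  have h11 : 2 * (β * θ) = β * (γ ^ 3 * ε ^ 4) := by rw [hθ]; ring
  rw [h10, h11] at h8
  have h12 := le_of_mul_le_mul_left h8 hβpos
  have h13 : γ ^ 3 * ε ^ 4 < β ^ 3 * ε ^ 4 := mul_lt_mul_of_pos_right h9 (by positivity)
  linarith

/-- The group lemma. -/
lemma group_bound {S ι V : Type*} [Fintype S] [Fintype ι] [Fintype V]
    [Nonempty S] [Nonempty ι] [Nonempty V]
    (s : S → ι → ℝ) (hs : ∀ σ i, s σ i = 1 ∨ s σ i = -1) (κ : ℝ)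
    (hκ : ∀ c : ι → ℝ, (∀ i, 0 ≤ c i ∧ c i ≤ 1) → 𝔼 σ, |∑ i, s σ i * c i| ≤ κ)
    (safe : ι → ι → Prop) (hsafe : ∀ i j, safe i j ∨ safe j i)
    (φ : ι → V → ℝ) (hφ : ∀ i v, 0 ≤ φ i v ∧ φ i v ≤ 1)
    (E : S → ι → Set V) (P P' : S → ι → Prop) (ε γ θ' : ℝ) (hε : 0 < ε) (hγ : 0 < γ)
    (hθ' : 0 ≤ θ') (r : ℕ) (hr : (1 - γ ^ 3 * ε ^ 4 / 2) ^ r ≤ γ) (hr' : r * θ' ≤ γ)
    (hP : ∀ σ i, P σ i → ε ≤ 𝔼 v, φ i v * ib (v ∈ E σ i))
    (hP' : ∀ σ i, θ' ≤ Theta safe φ E σ i → P' σ i) :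
    𝔼 σ, ∑ i, (ib (s σ i = 1) * ib (P σ i) - ib (s σ i = -1) * ib (P' σ i))
      ≤ 2 ^ r * κ + 2 * γ * Fintype.card ι := by
  set θ := γ ^ 3 * ε ^ 4 / 2 with hθ
  have h1 := stab s κ hκ (aa safe φ E) (aa_bounds safe φ hφ E)
    (fun σ (ω : ι × V × S) => ω.2.1 ∈ E σ ω.1) r
  have h2 := few_bad safe hsafe φ hφ E P ε γ hε hγ hP
  have h3 : ∀ σ i, ib (s σ i = 1) * ib (P σ i) - ib (s σ i = -1) * ib (P' σ i)
      ≤ s σ i * (1 - (1 - Theta safe φ E σ i) ^ r) + γ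
        + ib (P σ i ∧ Theta safe φ E σ i < θ) := by
    intro σ i
    obtain ⟨t0, t1⟩ := Theta_bounds safe φ hφ E σ i
    set t := Theta safe φ E σ i with ht
    have p0 : 0 ≤ (1 - t) ^ r := pow_nonneg (by linarith) r
    have p1 : (1 - t) ^ r ≤ 1 := pow_le_one₀ (by linarith) (by linarith)
    have q0 := ib_nonneg (P σ i ∧ t < θ)
    rcases hs σ i with h | h
    · rw [h, ib_pos (rfl : (1 : ℝ) = 1), ib_neg (by norm_num : ¬ ((1 : ℝ) = -1))]
      by_cases hp : P σ i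
      · by_cases hlt : t < θ
        · rw [ib_pos hp, ib_pos (show P σ i ∧ t < θ from ⟨hp, hlt⟩)]; linarith
        · push Not at hlt
          have : (1 - t) ^ r ≤ (1 - θ) ^ r := pow_le_pow_left₀ (by linarith) (by linarith) r
          rw [ib_pos hp]; linarith
      · rw [ib_neg hp]; linarith
    · rw [h, ib_pos (rfl : (-1 : ℝ) = -1), ib_neg (by norm_num : ¬ ((-1 : ℝ) = 1))]
      by_cases hlt : θ' ≤ t
      · rw [ib_pos (hP' σ i hlt)]; linarith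
      · push Not at hlt
        have b1 : 1 + (r : ℝ) * (-t) ≤ (1 + (-t)) ^ r := one_add_mul_le_pow (by linarith) r
        have b2 : (r : ℝ) * t ≤ r * θ' := mul_le_mul_of_nonneg_left hlt.le (Nat.cast_nonneg r)
        have b3 := ib_nonneg (P' σ i)
        have b4 : (1 + (-t)) = 1 - t := by ring
        rw [b4] at b1
        linarith
  refine (expect_le_expect fun σ _ => sum_le_sum fun i _ => h3 σ i).trans ?_
  simp_rw [sum_add_distrib, expect_add_distrib]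
  have h4 : 𝔼 σ, ∑ i, ib (P σ i ∧ Theta safe φ E σ i < θ) ≤ γ * Fintype.card ι := by
    simp_rw [← Fintype.card_mul_expect]
    rw [← mul_expect, mul_comm]
    exact mul_le_mul_of_nonneg_right h2 (Nat.cast_nonneg _)
  have h5 : 𝔼 _σ : S, ∑ _i : ι, γ = γ * Fintype.card ι := by
    rw [Fintype.expect_const]; simp [mul_comm]
  rw [h5]
  have h6 : 𝔼 σ, ∑ i, s σ i * (1 - (1 - Theta safe φ E σ i) ^ r) ≤ 2 ^ r * κ := h1
  linarith

end Crest.Agent.R071
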