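import Mathlib
import Crest.Agent.R071.Group

/-!
Product-space facts for row 71: monotone sets, juntas, weak regularity, and a tournament-like
structure in which every small set is dominated.
-/

set_option autoImplicit false

open Finset
open scoped BigOperators

namespace Crest.Agent.R071

section cube

variable {M Q : Type*} [Fintype M] [DecidableEq M] [Fintype Q] [DecidableEq Q]

/-- closed under setting a coordinate to `o` -/
def Mono (o : Q) (E : Set (M → Q)) : Prop := ∀ v ∈ E, ∀ y, Function.update v y o ∈ E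

/-- depends on at most `L` coordinates -/
def Junta (L : ℕ) (E : Set (M → Q)) : Prop :=
  ∃ B : Finset M, B.card ≤ L ∧ ∀ v v' : M → Q, (∀ y ∈ B, v y = v' y) → v ∈ E → v' ∈ E

/-- does not depend on coordinate `y` -/
def Indep (φ : (M → Q) → ℝ) (y : M) : Prop := ∀ v c, φ (Function.update v y c) = φ v

/-- depends only on the coordinates in `B` -/
def Dep (B : Finset M) (g : (M → Q) → ℝ) : Prop :=
  ∀ v v' : M → Q, (∀ y ∈ B, v y = v' y) → g v = g v'

omit [Fintype M] [Fintype Q] [DecidableEq Q] in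
lemma Dep.indep {B : Finset M} {g : (M → Q) → ℝ} (h : Dep B g) {y : M} (hy : y ∉ B) :
    Indep g y := by
  intro v c
  refine h _ _ fun z hz => ?_
  have : z ≠ y := fun e => hy (e ▸ hz)
  simp [Function.update_of_ne this]

omit [Fintype M] [Fintype Q] [DecidableEq Q] [DecidableEq M] in
lemma Dep.mono {B B' : Finset M} {g : (M → Q) → ℝ} (h : Dep B g) (hB : B ⊆ B') : Dep B' g :=
  fun v v' hv => h v v' fun y hy => hv y (hB hy)

lemma expect_slice_eq (ψ : (M → Q) → ℝ) (y : M) (h : Indep ψ y) (o c : Q) :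
    𝔼 v : M → Q, ψ v * ib (v y = c) = 𝔼 v : M → Q, ψ v * ib (v y = o) := by
  let T : (M → Q) → (M → Q) := fun v => Function.update v y (Equiv.swap c o (v y))
  have hT : Function.Involutive T := by
    intro v
    simp [T]
  refine Fintype.expect_equiv hT.toPerm _ _ fun v => ?_
  simp only [Function.Involutive.coe_toPerm, T, h v, Function.update_self]
  congr 1
  apply ib_congr
  constructor
  · rintro rfl; simp
  · intro h'
    have := congrArg (Equiv.swap c o) h'
    simpa using this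

lemma expect_slice (ψ : (M → Q) → ℝ) (y : M) (h : Indep ψ y) (o : Q) :
    (Fintype.card Q : ℝ) * 𝔼 v : M → Q, ψ v * ib (v y = o) = 𝔼 v : M → Q, ψ v := by
  have h1 : ∑ c : Q, 𝔼 v : M → Q, ψ v * ib (v y = c) = 𝔼 v : M → Q, ψ v := by
    rw [← expect_sum_comm]
    refine expect_congr rfl fun v _ => ?_
    rw [← mul_sum]
    have : ∑ c : Q, ib (v y = c) = 1 := by
      rw [sum_eq_single (v y)]
      · exact ib_pos rfl
      · intro c _ hc; exact ib_neg (Ne.symm hc)
      · simp
    rw [this, mul_one]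
  rw [← h1, sum_congr rfl fun c _ => expect_slice_eq ψ y h o c]
  simp

lemma expect_mono_le (o : Q) (φ : (M → Q) → ℝ) (hφ : ∀ v, 0 ≤ φ v) (y : M) (h : Indep φ y)
    (D : Set (M → Q)) (hD : Mono o D) :
    𝔼 v, φ v * ib (v ∈ D) ≤ Fintype.card Q * 𝔼 v, φ v * ib (v ∈ D ∧ v y = o) := by
  have h1 : Indep (fun v => φ v * ib (Function.update v y o ∈ D)) y := by
    intro v c
    simp only [h v c, Function.update_idem]
  have h2 := expect_slice _ y h1 o
  have h3 : 𝔼 v : M → Q, φ v * ib (Function.update v y o ∈ D) * ib (v y = o)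
      = 𝔼 v, φ v * ib (v ∈ D ∧ v y = o) := by
    refine expect_congr rfl fun v _ => ?_
    rw [mul_assoc, ← ib_and]
    congr 1
    apply ib_congr
    constructor
    · rintro ⟨h1, h2⟩
      rw [← h2, Function.update_eq_self] at h1
      exact ⟨h1, h2⟩
    · rintro ⟨h1, h2⟩
      exact ⟨hD v h1 y, h2⟩
  rw [← h3, h2]
  refine expect_le_expect fun v _ => ?_
  exact mul_le_mul_of_nonneg_left (ib_mono fun hv => hD v hv y) (hφ v)

lemma expect_H (o : Q) (y : M) :
    (Fintype.card Q : ℝ) * 𝔼 v : M → Q, ib (v y = o) = 1 := by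
  haveI : Nonempty Q := ⟨o⟩
  have := expect_slice (fun _ => (1 : ℝ)) y (fun _ _ => rfl) o
  simpa [Fintype.expect_const] using this

lemma expect_HH (o : Q) (y y' : M) (hy : y ≠ y') :
    (Fintype.card Q : ℝ) ^ 2 * 𝔼 v : M → Q, ib (v y = o) * ib (v y' = o) = 1 := by
  have h1 : Indep (fun v : M → Q => ib (v y = o)) y' := by
    intro v c
    simp only [Function.update_of_ne hy]
  have h2 := expect_slice _ y' h1 o
  rw [sq, mul_assoc, h2, expect_H]

lemma card_H (o : Q) (y : M) :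
    Fintype.card Q * Fintype.card {v : M → Q // v y = o} = Fintype.card (M → Q) := by
  haveI : Nonempty Q := ⟨o⟩
  have h := expect_H o y
  have h2 : ∑ v : M → Q, ib (v y = o) = Fintype.card {v : M → Q // v y = o} := by
    rw [Fintype.card_subtype]
    simp only [card_filter, ib]
    push_cast
    refine sum_congr rfl fun v _ => ?_
    congr
  rw [Fintype.expect_eq_sum_div_card, h2] at h
  have h3 : (0 : ℝ) < Fintype.card (M → Q) := by exact_mod_cast Fintype.card_pos
  field_simp at h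
  exact_mod_cast h

omit [Fintype M] [Fintype Q] [DecidableEq Q] in
lemma Mono.inter {o : Q} {E E' : Set (M → Q)} (h : Mono o E) (h' : Mono o E') :
    Mono o (E ∩ E') := fun v hv y => ⟨h v hv.1 y, h' v hv.2 y⟩

omit [Fintype M] [Fintype Q] [DecidableEq Q] in
lemma mono_H (o : Q) (y : M) : Mono o {v : M → Q | v y = o} := by
  intro v hv z
  by_cases h : y = z
  · subst h; simp
  · simpa [Function.update_of_ne h] using hv

omit [Fintype M] [Fintype Q] [DecidableEq Q] in
lemma Junta.inter {L L' : ℕ} {E E' : Set (M → Q)} (h : Junta L E) (h' : Junta L' E') :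
    Junta (L + L') (E ∩ E') := by
  obtain ⟨B, hB, h⟩ := h
  obtain ⟨B', hB', h'⟩ := h'
  refine ⟨B ∪ B', (card_union_le _ _).trans (add_le_add hB hB'), fun v v' hv hE => ?_⟩
  exact ⟨h v v' (fun y hy => hv y (mem_union_left _ hy)) hE.1,
    h' v v' (fun y hy => hv y (mem_union_right _ hy)) hE.2⟩

omit [Fintype M] [Fintype Q] [DecidableEq Q] [DecidableEq M] in
lemma Junta.mono {L L' : ℕ} {E : Set (M → Q)} (h : Junta L E) (hL : L ≤ L') : Junta L' E := by
  obtain ⟨B, hB, h⟩ := h
  exact ⟨B, hB.trans hL, h⟩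

omit [Fintype M] [Fintype Q] [DecidableEq Q] [DecidableEq M] in
lemma junta_H (o : Q) (y : M) : Junta 1 {v : M → Q | v y = o} :=
  ⟨{y}, by simp, fun v v' hv h => by
    have := hv y (by simp)
    simp only [Set.mem_setOf_eq] at h ⊢
    rw [← this, h]⟩

omit [Fintype M] [Fintype Q] [DecidableEq Q] in
lemma junta_union {ι : Type*} [Fintype ι] (L : ℕ) (E : ι → Set (M → Q)) (c : ι → Prop)
    (h : ∀ i, Junta L (E i)) : Junta (Fintype.card ι * L) {v | ∃ i, c i ∧ v ∈ E i} := by
  choose B hB h using h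
  refine ⟨univ.biUnion B, ?_, fun v v' hv hE => ?_⟩
  · refine card_biUnion_le.trans ?_
    refine (sum_le_sum fun i _ => hB i).trans ?_
    simp
  · obtain ⟨i, hc, hi⟩ := hE
    exact ⟨i, hc, h i v v' (fun y hy => hv y (mem_biUnion.2 ⟨i, mem_univ _, hy⟩)) hi⟩

/-- conditional expectation on the coordinates in `B` -/
noncomputable def cond (B : Finset M) (χ : (M → Q) → ℝ) (v : M → Q) : ℝ :=
  𝔼 v' : M → Q, χ (B.piecewise v v')

omit [DecidableEq Q] in
lemma dep_cond (B : Finset M) (χ : (M → Q) → ℝ) : Dep B (cond B χ) := by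
  intro v v' hv
  unfold cond
  refine expect_congr rfl fun v'' _ => ?_
  congr 1
  funext y
  by_cases hy : y ∈ B
  · simp [hy, hv y hy]
  · simp [hy]

omit [DecidableEq Q] in
lemma cond_bounds [Nonempty Q] (B : Finset M) (χ : (M → Q) → ℝ) (hχ : ∀ v, 0 ≤ χ v ∧ χ v ≤ 1)
    (v : M → Q) : 0 ≤ cond B χ v ∧ cond B χ v ≤ 1 :=
  ⟨expect_nonneg fun _ _ => (hχ _).1, expect_le univ_nonempty fun _ _ => (hχ _).2⟩

omit [DecidableEq Q] in
lemma expect_cond_mul [Nonempty Q] (B : Finset M) (χ g : (M → Q) → ℝ) (hg : Dep B g) :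
    𝔼 v, cond B χ v * g v = 𝔼 v, χ v * g v := by
  let T : (M → Q) × (M → Q) → (M → Q) × (M → Q) :=
    fun x => (B.piecewise x.1 x.2, B.piecewise x.2 x.1)
  have hT : Function.Involutive T := by
    rintro ⟨v, v'⟩
    simp only [T, Prod.mk.injEq]
    constructor <;> funext y <;> by_cases hy : y ∈ B <;> simp [hy]
  have h1 : 𝔼 v, cond B χ v * g v
      = 𝔼 x : (M → Q) × (M → Q), χ (T x).1 * g (T x).1 := by
    rw [expect_prod2]
    refine expect_congr rfl fun v _ => ?_
    unfold cond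
    rw [expect_mul]
    refine expect_congr rfl fun v' _ => ?_
    simp only [T]
    congr 1
    exact hg _ _ fun y hy => by simp [hy]
  have h2 : 𝔼 x : (M → Q) × (M → Q), χ (T x).1 * g (T x).1
      = 𝔼 x : (M → Q) × (M → Q), χ x.1 * g x.1 :=
    Fintype.expect_equiv hT.toPerm _ _ fun x => rfl
  rw [h1, h2, expect_prod2]
  refine expect_congr rfl fun v _ => ?_
  simp [Fintype.expect_const]

omit [DecidableEq Q] in
/-- Weak regularity against juntas. -/
lemma regularity [Nonempty Q] (χ : (M → Q) → ℝ) (hχ : ∀ v, 0 ≤ χ v ∧ χ v ≤ 1)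
    (ℓ : ℕ) (hℓ : 0 < ℓ) (τ : ℝ) (hτ : 0 < τ) :
    ∃ B : Finset M, (B.card : ℝ) ≤ ℓ / τ ^ 2 ∧ ∀ G : Set (M → Q), Junta ℓ G →
      𝔼 v, cond B χ v * ib (v ∈ G) ≤ 𝔼 v, χ v * ib (v ∈ G) + τ := by
  let e : Finset M → ℝ := fun B => 𝔼 v, cond B χ v * cond B χ v
  let Ψ : Finset M → ℝ := fun B => e B - τ ^ 2 * B.card / ℓ
  obtain ⟨B, -, hB⟩ := exists_max_image (univ : Finset (Finset M)) Ψ univ_nonempty
  have hℓ' : (0 : ℝ) < ℓ := by exact_mod_cast hℓ
  have he0 : ∀ B, 0 ≤ e B := fun B => expect_nonneg fun v _ => mul_self_nonneg _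
  have he1 : ∀ B, e B ≤ 1 := fun B => expect_le univ_nonempty fun v _ =>
    mul_le_one₀ (cond_bounds B χ hχ v).2 (cond_bounds B χ hχ v).1 (cond_bounds B χ hχ v).2
  refine ⟨B, ?_, ?_⟩
  · have h1 := hB ∅ (mem_univ _)
    simp only [Ψ, card_empty, Nat.cast_zero, mul_zero, zero_div, sub_zero] at h1
    have h2 : τ ^ 2 * B.card / ℓ ≤ 1 := by linarith [he0 ∅, he1 B]
    rw [div_le_one hℓ'] at h2
    rw [le_div_iff₀ (by positivity)]
    linarith
  · rintro G ⟨B', hB', hG⟩
    by_contra hcon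
    push Not at hcon
    have hg : Dep (B ∪ B') (fun v => ib (v ∈ G)) := by
      intro v v' hv
      apply ib_congr
      exact ⟨hG v v' fun y hy => hv y (mem_union_right _ hy),
        hG v' v fun y hy => (hv y (mem_union_right _ hy)).symm⟩
    set φ := cond B χ with hφ
    set φ' := cond (B ∪ B') χ with hφ'
    have h1 : 𝔼 v, φ' v * ib (v ∈ G) = 𝔼 v, χ v * ib (v ∈ G) := expect_cond_mul _ _ _ hg
    have h2 : 𝔼 v, φ' v * φ v = 𝔼 v, φ v * φ v := by
      rw [expect_cond_mul _ _ _ ((dep_cond B χ).mono subset_union_left),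
        expect_cond_mul _ _ _ (dep_cond B χ)]
    have h3 : τ < 𝔼 v, (φ v - φ' v) * ib (v ∈ G) := by
      simp_rw [sub_mul]
      rw [expect_sub_distrib, h1]
      linarith
    have h4 : (𝔼 v, (φ v - φ' v) * ib (v ∈ G)) ^ 2 ≤ 𝔼 v, (φ v - φ' v) ^ 2 := by
      refine (sq_expect_le _).trans (expect_le_expect fun v _ => ?_)
      rw [mul_pow]
      refine mul_le_of_le_one_right (sq_nonneg _) ?_
      exact pow_le_one₀ (ib_nonneg _) (ib_le_one _)
    have h5 : 𝔼 v, (φ v - φ' v) ^ 2 = e (B ∪ B') - e B := by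
      have : ∀ v, (φ v - φ' v) ^ 2 = φ v * φ v - 2 * (φ' v * φ v) + φ' v * φ' v := by
        intro v; ring
      simp_rw [this]
      rw [expect_add_distrib, expect_sub_distrib, ← mul_expect, h2]
      simp only [e]
      rw [← hφ, ← hφ']
      ring
    have h6 : τ ^ 2 < (𝔼 v, (φ v - φ' v) * ib (v ∈ G)) ^ 2 :=
      pow_lt_pow_left₀ h3 hτ.le (by norm_num)
    have h7 := hB (B ∪ B') (mem_univ _)
    simp only [Ψ] at h7
    have h8 : ((B ∪ B').card : ℝ) ≤ B.card + ℓ := by
      exact_mod_cast (card_union_le B B').trans (Nat.add_le_add_left hB' _)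
    have h9 : τ ^ 2 * (B ∪ B').card / ℓ ≤ τ ^ 2 * B.card / ℓ + τ ^ 2 := by
      rw [div_add' _ _ _ hℓ'.ne', div_le_div_iff_of_pos_right hℓ']
      nlinarith [sq_nonneg τ]
    linarith

end cube

/-- A structure in which every small set is dominated. -/
lemma schutte (s : ℕ) : ∃ (M : Type) (_ : Fintype M) (_ : DecidableEq M) (p : Finset M → M),
    ∀ B B' : Finset M, B.card ≤ s → B'.card ≤ s → p B' ∉ B ∨ p B ∉ B' := by
  classical
  let A := Fin (s * s + 1)
  let M := A × {C : Finset A // C.card ≤ s}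
  have key : ∀ B : Finset M, B.card ≤ s → ∃ p : M, ∀ b ∈ B, b.1 ∈ p.2.1 ∧ p.1 ∉ b.2.1 := by
    intro B hB
    have h1 : (B.biUnion fun b => b.2.1).card < (univ : Finset A).card := by
      refine lt_of_le_of_lt card_biUnion_le ?_
      refine lt_of_le_of_lt (sum_le_sum fun b _ => b.2.2) ?_
      simp only [sum_const, smul_eq_mul, A, card_univ, Fintype.card_fin]
      exact Nat.lt_succ_of_le (Nat.mul_le_mul_right _ hB)
    obtain ⟨a, -, ha⟩ := exists_mem_notMem_of_card_lt_card h1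
    refine ⟨(a, ⟨B.image Prod.fst, card_image_le.trans hB⟩), fun b hb => ⟨?_, ?_⟩⟩
    · exact mem_image_of_mem _ hb
    · intro h
      exact ha (mem_biUnion.2 ⟨b, hb, h⟩)
  haveI : Nonempty M := ⟨(⟨0, Nat.succ_pos _⟩, ⟨∅, by simp⟩)⟩
  choose! p hp using key
  refine ⟨M, inferInstance, inferInstance, p, fun B B' hB hB' => ?_⟩
  by_contra hcon
  push Not at hcon
  exact (hp B' hB' _ hcon.2).2 (hp B hB _ hcon.1).1

end Crest.Agent.R071
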