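import Mathlib
import Crest.Agent.R071.Cube

/-!
Levels of goodness, the retention step and the Rademacher bound for row 71.
-/

set_option autoImplicit false

open Finset
open scoped BigOperators

namespace Crest.Agent.R071

/-- sign of a Boolean -/
def sg (b : Bool) : ℝ := if b then 1 else -1

lemma sg_cases (b : Bool) : sg b = 1 ∨ sg b = -1 := by cases b <;> simp [sg]
lemma sg_not (b : Bool) : sg (!b) = - sg b := by cases b <;> simp [sg]
lemma sg_mul_self (b : Bool) : sg b * sg b = 1 := by cases b <;> simp [sg]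

lemma expect_sg_mul {α : Type*} [Fintype α] [DecidableEq α] (i j : α) (h : i ≠ j) :
    𝔼 σ : α → Bool, sg (σ i) * sg (σ j) = 0 := by
  let T : (α → Bool) → (α → Bool) := fun σ => Function.update σ i (!σ i)
  have hT : Function.Involutive T := by
    intro σ; simp [T]
  have h1 : 𝔼 σ : α → Bool, sg (σ i) * sg (σ j) = 𝔼 σ : α → Bool, -(sg (σ i) * sg (σ j)) := by
    refine Fintype.expect_equiv hT.toPerm _ _ fun σ => ?_
    simp [T, Function.update_of_ne h.symm, sg_not]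
  rw [expect_neg_distrib] at h1
  linarith

lemma khin {α ι : Type*} [Fintype α] [DecidableEq α] [Fintype ι] (e : ι → α)
    (he : Function.Injective e) (κ : ℝ) (hκ : 0 ≤ κ) (hn : (Fintype.card ι : ℝ) ≤ κ ^ 2)
    (c : ι → ℝ) (hc : ∀ i, 0 ≤ c i ∧ c i ≤ 1) :
    𝔼 σ : α → Bool, |∑ i, sg (σ (e i)) * c i| ≤ κ := by
  classical
  have h1 : 𝔼 σ : α → Bool, |∑ i, sg (σ (e i)) * c i| ^ 2 = ∑ i, c i * c i := by
    simp_rw [sq_abs, sq, sum_mul_sum]
    rw [expect_sum_comm]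
    refine sum_congr rfl fun i _ => ?_
    rw [expect_sum_comm, sum_eq_single i]
    · have : ∀ σ : α → Bool, sg (σ (e i)) * c i * (sg (σ (e i)) * c i) = c i * c i := by
        intro σ
        rw [mul_mul_mul_comm, sg_mul_self, one_mul]
      simp_rw [this]
      exact Fintype.expect_const _
    · intro j _ hj
      have : ∀ σ : α → Bool, sg (σ (e i)) * c i * (sg (σ (e j)) * c j)
          = sg (σ (e i)) * sg (σ (e j)) * (c i * c j) := fun σ => by ring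
      simp_rw [this]
      rw [← expect_mul, expect_sg_mul _ _ (fun h => hj (he h).symm), zero_mul]
    · simp
  have h2 : ∑ i, c i * c i ≤ Fintype.card ι := by
    refine (sum_le_sum fun i _ => mul_le_one₀ (hc i).2 (hc i).1 (hc i).2).trans ?_
    simp
  have h3 := sq_expect_le (fun σ : α → Bool => |∑ i, sg (σ (e i)) * c i|)
  refine abs_le_of_sq_le_sq' ?_ hκ |>.2
  linarith

section level

variable {M Q : Type*} [Fintype M] [DecidableEq M] [Fintype Q] [DecidableEq Q] {Γ : Type*}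

/-- The word `w` agrees with the row `(p, φ, u)` on a large monotone junta. -/
def Good (o : Q) (p : M) (φ : (M → Q) → ℝ) (u w : (M → Q) → Γ) (L : ℕ) (ε : ℝ) : Prop :=
  ∃ E : Set (M → Q), Mono o E ∧ Junta L E ∧ (∀ v ∈ E, v p = o → w v = u v) ∧
    ε ≤ 𝔼 v, φ v * ib (v ∈ E)

omit [DecidableEq Q] in
lemma Good.mono {o : Q} {p : M} {φ : (M → Q) → ℝ} {u w : (M → Q) → Γ} {L L' : ℕ} {ε ε' : ℝ}
    (h : Good o p φ u w L ε) (hL : L ≤ L') (hε : ε' ≤ ε) : Good o p φ u w L' ε' := by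
  obtain ⟨E, h1, h2, h3, h4⟩ := h
  exact ⟨E, h1, h2.mono hL, h3, hε.trans h4⟩

omit [DecidableEq Q] in
lemma exists_wit (o : Q) (p : M) (φ : (M → Q) → ℝ) (u w : (M → Q) → Γ) (L : ℕ) (ε : ℝ) :
    ∃ E : Set (M → Q), Mono o E ∧ Junta L E ∧ (∀ v ∈ E, v p = o → w v = u v) ∧
      (Good o p φ u w L ε → ε ≤ 𝔼 v, φ v * ib (v ∈ E)) := by
  by_cases h : Good o p φ u w L ε
  · obtain ⟨E, h1, h2, h3, h4⟩ := h
    exact ⟨E, h1, h2, h3, fun _ => h4⟩
  · exact ⟨∅, fun v hv => hv.elim, ⟨∅, by simp, fun v _ _ hv => hv.elim⟩,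
      fun v hv => hv.elim, fun h' => (h h').elim⟩

omit [DecidableEq Q] in
lemma retain_common {S ι : Type*} [Fintype S] [Fintype ι] [Nonempty S]
    (o : Q) (p : ι → M) (φ : ι → (M → Q) → ℝ)
    (u : ι → (M → Q) → Γ) (w : S → (M → Q) → Γ) (L : ℕ)
    (E : S → ι → Set (M → Q)) (hE1 : ∀ σ i, Mono o (E σ i)) (hE2 : ∀ σ i, Junta L (E σ i))
    (hE3 : ∀ σ i, ∀ v ∈ E σ i, v (p i) = o → w σ v = u i v)
    (safe : ι → ι → Prop) (σ : S) (i : ι) :
    ∃ D : ι → Set (M → Q), (∀ j, Mono o (D j)) ∧ (∀ j, Junta (3 * L) (D j)) ∧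
      (∀ j, ∀ v ∈ D j, v (p i) = o → v (p j) = o → w σ v = u i v) ∧
      Theta safe φ E σ i ≤ 𝔼 j, ib (safe i j) * 𝔼 v, φ i v * ib (v ∈ D j) := by
  let D : ι → S → Set (M → Q) := fun j σ' => E σ' i ∩ E σ' j ∩ E σ j
  have hmax : ∀ j, ∃ σ₀ : S, ∀ σ', 𝔼 v, φ i v * ib (v ∈ D j σ') ≤ 𝔼 v, φ i v * ib (v ∈ D j σ₀) := by
    intro j
    obtain ⟨σ₀, -, h⟩ := exists_max_image (univ : Finset S)
      (fun σ' => 𝔼 v, φ i v * ib (v ∈ D j σ')) univ_nonempty
    exact ⟨σ₀, fun σ' => h σ' (mem_univ _)⟩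
  choose σ₀ hσ₀ using hmax
  refine ⟨fun j => D j (σ₀ j), fun j => ((hE1 _ _).inter (hE1 _ _)).inter (hE1 _ _),
    fun j => (((hE2 _ _).inter (hE2 _ _)).inter (hE2 _ _)).mono (by omega), ?_, ?_⟩
  · rintro j v ⟨⟨h1, h2⟩, h3⟩ hi hj
    rw [hE3 _ _ v h3 hj, ← hE3 _ _ v h2 hj, hE3 _ _ v h1 hi]
  · unfold Theta
    simp_rw [expect_prod2]
    refine expect_le_expect fun j _ => ?_
    rw [expect_comm]
    refine expect_le univ_nonempty fun σ' _ => ?_
    refine le_trans (le_of_eq ?_) (mul_le_mul_of_nonneg_left (hσ₀ j σ') (ib_nonneg _))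
    rw [mul_expect]
    refine expect_congr rfl fun v _ => ?_
    simp only [aa, D, Set.mem_inter_iff, ib_and]
    ring

omit [DecidableEq Q] in
lemma retain_heavy {ι : Type*} [Fintype ι] [Nonempty ι]
    (o : Q) (p : ι → M) (φ : (M → Q) → ℝ) (hφ : ∀ v, 0 ≤ φ v)
    (u w : (M → Q) → Γ) (L : ℕ) (safe : ι → Prop) (p₀ : M) (hp : ∀ j, p j = p₀)
    (D : ι → Set (M → Q)) (h1 : ∀ j, Mono o (D j)) (h2 : ∀ j, Junta L (D j))
    (h3 : ∀ j, ∀ v ∈ D j, v p₀ = o → v (p j) = o → w v = u v) (θ : ℝ)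
    (h4 : θ ≤ 𝔼 j, ib (safe j) * 𝔼 v, φ v * ib (v ∈ D j)) :
    Good o p₀ φ u w L θ := by
  obtain ⟨j, -, hj⟩ := exists_le_of_le_expect univ_nonempty h4
  refine ⟨D j, h1 j, h2 j, fun v hv h => h3 j v hv h (by rw [hp j, h]), hj.trans ?_⟩
  exact mul_le_of_le_one_left (expect_nonneg fun v _ => mul_nonneg (hφ v) (ib_nonneg _))
    (ib_le_one _)

lemma retain_light {ι : Type*} [Fintype ι] [Nonempty ι]
    (o : Q) (p : ι → M) (φ : (M → Q) → ℝ) (hφ : ∀ v, 0 ≤ φ v ∧ φ v ≤ 1)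
    (u w : (M → Q) → Γ) (L : ℕ) (p₀ : M) (μ : ℝ) (hp : ∀ j, ∑ j', ib (p j = p j') ≤ μ)
    (D : ι → Set (M → Q)) (h1 : ∀ j, Mono o (D j)) (h2 : ∀ j, Junta L (D j))
    (h3 : ∀ j, ∀ v ∈ D j, v p₀ = o → v (p j) = o → w v = u v) (θ : ℝ) (hθ : 0 ≤ θ)
    (h4 : θ ≤ 𝔼 j, ib (Indep φ (p j)) * 𝔼 v, φ v * ib (v ∈ D j)) :
    Good o p₀ φ u w (Fintype.card ι * (L + 1))
      (θ ^ 2 * Fintype.card ι / (μ * Fintype.card Q + Fintype.card ι)) := by
  have : Nonempty Q := ⟨o⟩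
  set n : ℝ := (Fintype.card ι : ℝ) with hn
  set q : ℝ := (Fintype.card Q : ℝ) with hq
  have hn0 : 0 < n := by rw [hn]; exact_mod_cast Fintype.card_pos
  have hq0 : 0 < q := by rw [hq]; exact_mod_cast Fintype.card_pos
  have hμ : 0 ≤ μ := (sum_nonneg fun j _ => ib_nonneg _).trans (hp (Classical.arbitrary ι))
  let E : Set (M → Q) := {v | ∃ j, Indep φ (p j) ∧ v ∈ D j ∩ {v | v (p j) = o}}
  refine ⟨E, ?_, junta_union _ _ _ fun j => (h2 j).inter (junta_H o (p j)), ?_, ?_⟩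
  · rintro v ⟨j, hj, hv⟩ y
    exact ⟨j, hj, ((h1 j).inter (mono_H o (p j))) v hv y⟩
  · rintro v ⟨j, -, hv, hv'⟩ h
    exact h3 j v hv h hv'
  let Z : (M → Q) → ℝ := fun v => ∑ j, ib (Indep φ (p j)) * ib (v ∈ D j ∧ v (p j) = o)
  let W : (M → Q) → ℝ := fun v => ∑ j, ib (v (p j) = o)
  have hZ0 : ∀ v, 0 ≤ Z v := fun v => sum_nonneg fun j _ => mul_nonneg (ib_nonneg _) (ib_nonneg _)
  have hZW : ∀ v, Z v ≤ W v := fun v => sum_le_sum fun j _ => by
    rw [← ib_and]; exact ib_mono fun h => h.2.2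
  have e1 : n * θ ≤ q * 𝔼 v, φ v * Z v := by
    refine (mul_le_mul_of_nonneg_left h4 hn0.le).trans ?_
    rw [hn, Fintype.card_mul_expect]
    simp only [Z]
    simp_rw [mul_sum]
    rw [expect_sum_comm, mul_sum]
    refine sum_le_sum fun j _ => ?_
    by_cases hj : Indep φ (p j)
    · rw [ib_pos hj]
      simp only [one_mul]
      exact expect_mono_le o φ (fun v => (hφ v).1) (p j) hj (D j) (h1 j)
    · rw [ib_neg hj]; simp
  have e2 : (𝔼 v, φ v * Z v) ^ 2 ≤ (𝔼 v, φ v * ib (v ∈ E)) * 𝔼 v, W v ^ 2 := by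
    have a1 : ∀ v, φ v * Z v = (φ v * ib (v ∈ E)) * Z v := by
      intro v
      by_cases hv : v ∈ E
      · rw [ib_pos hv, mul_one]
      · have : Z v = 0 := sum_eq_zero fun j _ => by
          rw [← ib_and]
          exact ib_neg fun h => hv ⟨j, h.1, h.2⟩
        rw [this]; simp
    simp_rw [a1]
    refine (expect_mul_sq_le_sq_mul_sq univ _ _).trans ?_
    refine mul_le_mul (expect_le_expect fun v _ => ?_) (expect_le_expect fun v _ => ?_)
      (expect_nonneg fun v _ => sq_nonneg _)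
      (expect_nonneg fun v _ => mul_nonneg (hφ v).1 (ib_nonneg _))
    · rw [sq]
      exact mul_le_of_le_one_left (mul_nonneg (hφ v).1 (ib_nonneg _))
        (mul_le_one₀ (hφ v).2 (ib_nonneg _) (ib_le_one _))
    · exact pow_le_pow_left₀ (hZ0 v) (hZW v) 2
  have e3 : q ^ 2 * 𝔼 v, W v ^ 2 ≤ n * (μ * q + n) := by
    simp only [W]
    simp_rw [sq (∑ j, _), sum_mul_sum]
    rw [expect_sum_comm, mul_sum]
    have : ∀ j, q ^ 2 * 𝔼 v : M → Q, ∑ j', ib (v (p j) = o) * ib (v (p j') = o) ≤ μ * q + n := by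
      intro j
      rw [expect_sum_comm, mul_sum]
      have b : ∀ j', q ^ 2 * 𝔼 v : M → Q, ib (v (p j) = o) * ib (v (p j') = o)
          ≤ ib (p j = p j') * q + 1 := by
        intro j'
        by_cases h : p j = p j'
        · rw [ib_pos h, ← h]
          simp_rw [ib_mul_self]
          rw [sq, mul_assoc, expect_H]
          linarith
        · rw [ib_neg h, expect_HH o _ _ h]; simp
      refine (sum_le_sum fun j' _ => b j').trans ?_
      rw [sum_add_distrib, ← sum_mul]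
      simp only [sum_const, card_univ, nsmul_eq_mul, mul_one]
      exact add_le_add (mul_le_mul_of_nonneg_right (hp j) hq0.le) le_rfl
    refine (sum_le_sum fun j _ => this j).trans ?_
    simp only [sum_const, card_univ, nsmul_eq_mul]
    exact le_rfl
  have m0 : 0 ≤ 𝔼 v, φ v * ib (v ∈ E) :=
    expect_nonneg fun v _ => mul_nonneg (hφ v).1 (ib_nonneg _)
  set A := 𝔼 v, φ v * ib (v ∈ E)
  have e4 : (n * θ) ^ 2 ≤ A * (n * (μ * q + n)) := by
    calc (n * θ) ^ 2 ≤ (q * 𝔼 v, φ v * Z v) ^ 2 := pow_le_pow_left₀ (by positivity) e1 2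
      _ = q ^ 2 * (𝔼 v, φ v * Z v) ^ 2 := by ring
      _ ≤ q ^ 2 * (A * 𝔼 v, W v ^ 2) := mul_le_mul_of_nonneg_left e2 (sq_nonneg _)
      _ = A * (q ^ 2 * 𝔼 v, W v ^ 2) := by ring
      _ ≤ _ := mul_le_mul_of_nonneg_left e3 m0
  rw [div_le_iff₀ (by positivity)]
  refine le_of_mul_le_mul_left ?_ hn0
  nlinarith

end level

end Crest.Agent.R071
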