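import Mathlib
import Crest.Agent.R071.Level

/-!
One level of the Rademacher bound for row 71, and the iteration over levels.
-/

set_option autoImplicit false

open Finset
open scoped BigOperators

namespace Crest.Agent.R071

lemma group_step {M Q : Type*} [Fintype M] [DecidableEq M] [Fintype Q] {Γ : Type*}
    {ι : Type*} [Fintype ι] [Nonempty ι] {m : ℕ} (e : ι → Fin m) (he : Function.Injective e)
    (o : Q) (p : Fin m → M) (φ : Fin m → (M → Q) → ℝ) (u : Fin m → (M → Q) → Γ)
    (w : (Fin m → Bool) → (M → Q) → Γ) (L L' : ℕ)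
    (hφ : ∀ i v, 0 ≤ φ i v ∧ φ i v ≤ 1) (hsafe : ∀ i j, Indep (φ i) (p j) ∨ Indep (φ j) (p i))
    (ε γ θ' ε' : ℝ) (hε : 0 < ε) (hγ : 0 < γ) (hθ' : 0 ≤ θ') (r : ℕ)
    (hr : (1 - γ ^ 3 * ε ^ 4 / 2) ^ r ≤ γ) (hr' : r * θ' ≤ γ)
    (hn : (4 : ℝ) ^ r ≤ γ ^ 2 * Fintype.card ι)
    (hret : ∀ σ (i : ι) (D : ι → Set (M → Q)), (∀ j, Mono o (D j)) → (∀ j, Junta (3 * L) (D j)) →
      (∀ j, ∀ v ∈ D j, v (p (e i)) = o → v (p (e j)) = o → w σ v = u (e i) v) →
      θ' ≤ 𝔼 j, ib (Indep (φ (e i)) (p (e j))) * 𝔼 v, φ (e i) v * ib (v ∈ D j) →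
      Good o (p (e i)) (φ (e i)) (u (e i)) (w σ) L' ε') :
    𝔼 σ : Fin m → Bool, ∑ i : ι,
      (ib (sg (σ (e i)) = 1) * ib (Good o (p (e i)) (φ (e i)) (u (e i)) (w σ) L ε)
        - ib (sg (σ (e i)) = -1) * ib (Good o (p (e i)) (φ (e i)) (u (e i)) (w σ) L' ε'))
      ≤ 3 * γ * Fintype.card ι := by
  have : Nonempty Q := ⟨o⟩
  choose E hE1 hE2 hE3 hE4 using
    fun (σ : Fin m → Bool) (i : ι) => exists_wit o (p (e i)) (φ (e i)) (u (e i)) (w σ) L ε
  have hn0 : (0 : ℝ) < Fintype.card ι := by exact_mod_cast Fintype.card_pos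
  have h2r : (0 : ℝ) < 2 ^ r := by positivity
  have hκ : (Fintype.card ι : ℝ) ≤ (γ * Fintype.card ι / 2 ^ r) ^ 2 := by
    rw [div_pow, le_div_iff₀ (by positivity), ← pow_mul, mul_comm r 2, pow_mul]
    norm_num
    nlinarith
  have h := group_bound (fun (σ : Fin m → Bool) (i : ι) => sg (σ (e i))) (fun σ i => sg_cases _)
    (γ * Fintype.card ι / 2 ^ r) (khin e he _ (by positivity) hκ)
    (fun i j => Indep (φ (e i)) (p (e j))) (fun i j => hsafe _ _)
    (fun i => φ (e i)) (fun i => hφ _) E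
    (fun σ i => Good o (p (e i)) (φ (e i)) (u (e i)) (w σ) L ε)
    (fun σ i => Good o (p (e i)) (φ (e i)) (u (e i)) (w σ) L' ε') ε γ θ' hε hγ hθ' r hr hr'
    hE4 (fun σ i hθ => by
      obtain ⟨D, h1, h2, h3, h4⟩ := retain_common o (fun i => p (e i)) (fun i => φ (e i))
        (fun i => u (e i)) w L E hE1 hE2 hE3 (fun i j => Indep (φ (e i)) (p (e j))) σ i
      exact hret σ i D h1 h2 h3 (hθ.trans h4))
  refine h.trans (le_of_eq ?_)
  field_simp
  ring

/-- One level of the Rademacher bound. -/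
def StepOK (γ : ℝ) (c m : ℕ) (ε ε' : ℝ) : Prop :=
  ∀ (M Q Γ : Type) [Fintype M] [DecidableEq M] [Fintype Q] [DecidableEq Q] (o : Q),
    Fintype.card Q = c * m →
    ∀ (p : Fin m → M) (φ : Fin m → (M → Q) → ℝ) (u : Fin m → (M → Q) → Γ)
      (w : (Fin m → Bool) → (M → Q) → Γ) (L : ℕ),
      (∀ i v, 0 ≤ φ i v ∧ φ i v ≤ 1) → (∀ i j, Indep (φ i) (p j) ∨ Indep (φ j) (p i)) →
      𝔼 σ : Fin m → Bool, ∑ i, (ib (sg (σ i) = 1) * ib (Good o (p i) (φ i) (u i) (w σ) L ε)
        - ib (sg (σ i) = -1) * ib (Good o (p i) (φ i) (u i) (w σ) (m * (3 * L + 1)) ε'))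
        ≤ 4 * γ * m

lemma step (γ : ℝ) (hγ : 0 < γ) (c : ℕ) (ε : ℝ) (hε : 0 < ε) :
    ∃ ε' : ℝ, 0 < ε' ∧ ε' ≤ ε ∧ ∃ m₀ : ℕ, ∀ m, m₀ ≤ m → StepOK γ c m ε ε' := by
  obtain ⟨r, hr⟩ := exists_pow_lt_of_lt_one hγ
    (show 1 - γ ^ 3 * ε ^ 4 / 2 < 1 by have : 0 < γ ^ 3 * ε ^ 4 / 2 := by positivity
                                       linarith)
  set θ' : ℝ := γ / (r + 1) with hθ'
  have hθ0 : 0 < θ' := by positivity
  have hr' : r * θ' ≤ γ := by
    rw [hθ', mul_div_assoc', div_le_iff₀ (by positivity)]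
    nlinarith
  set μ : ℝ := 4 ^ r / γ ^ 2 with hμ
  have hμ0 : 0 < μ := by positivity
  obtain ⟨m₀, hm₀⟩ := exists_nat_ge (μ / γ)
  refine ⟨min ε (min θ' (θ' ^ 2 * γ / (μ * c + γ))), by positivity, min_le_left _ _,
    m₀ + 1, fun m hm => ?_⟩
  set ε' := min ε (min θ' (θ' ^ 2 * γ / (μ * c + γ))) with hε'
  intro M Q Γ _ _ _ _ o hQ p φ u w L hφ hsafe
  classical
  have hm1 : 1 ≤ m := by omega
  have hm0 : (0 : ℝ) < m := by exact_mod_cast hm1
  have hmμ : μ ≤ γ * m := by
    rw [div_le_iff₀ hγ] at hm₀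
    have : (m₀ : ℝ) ≤ m := by exact_mod_cast (by omega : m₀ ≤ m)
    nlinarith
  let mult : M → ℝ := fun y => ∑ i, ib (y = p i)
  let g : Fin m → Option M := fun i => if μ < mult (p i) then some (p i) else none
  rw [show (fun σ : Fin m → Bool => ∑ i,
      (ib (sg (σ i) = 1) * ib (Good o (p i) (φ i) (u i) (w σ) L ε)
        - ib (sg (σ i) = -1) * ib (Good o (p i) (φ i) (u i) (w σ) (m * (3 * L + 1)) ε')))
      = fun σ => ∑ j : Option M, ∑ i : {i // g i = j},
      (ib (sg (σ i) = 1) * ib (Good o (p i) (φ i) (u i) (w σ) L ε)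
        - ib (sg (σ i) = -1) * ib (Good o (p i) (φ i) (u i) (w σ) (m * (3 * L + 1)) ε'))
      from funext fun σ => (Fintype.sum_fiberwise g _).symm]
  rw [expect_sum_comm]
  have hcard : ∑ j : Option M, (Fintype.card {i // g i = j} : ℝ) = m := by
    have := Fintype.sum_fiberwise g (fun _ => (1 : ℝ))
    simpa using this
  have key : ∀ j : Option M, 𝔼 σ : Fin m → Bool, ∑ i : {i // g i = j},
      (ib (sg (σ i) = 1) * ib (Good o (p i) (φ i) (u i) (w σ) L ε)
        - ib (sg (σ i) = -1) * ib (Good o (p i) (φ i) (u i) (w σ) (m * (3 * L + 1)) ε'))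
      ≤ 3 * γ * Fintype.card {i // g i = j} + if j = none then γ * m else 0 := by
    intro j
    have hite : 0 ≤ if j = none then γ * m else 0 := by split_ifs <;> positivity
    rcases isEmpty_or_nonempty {i // g i = j} with hemp | hne
    · simp only [univ_eq_empty, sum_empty, Fintype.card_eq_zero, Nat.cast_zero, mul_zero, zero_add]
      rw [Fintype.expect_const]
      exact hite
    have hcm : Fintype.card {i // g i = j} ≤ m := by
      simpa using Fintype.card_subtype_le (fun i => g i = j)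
    cases j with
    | some y =>
      have hy : ∀ i, g i = some y ↔ (μ < mult y ∧ p i = y) := by
        intro i
        simp only [g]
        split_ifs with h
        · simp only [Option.some.injEq]
          exact ⟨fun h' => ⟨h' ▸ h, h'⟩, fun h' => h'.2⟩
        · simp only [false_iff]
          rintro ⟨h1, h2⟩
          exact h (h2 ▸ h1)
      have hμy : μ < mult y := ((hy _).1 (Classical.arbitrary {i // g i = some y}).2).1
      have hc : mult y = Fintype.card {i // g i = some y} := by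
        rw [Fintype.card_subtype, card_filter]
        push_cast
        refine sum_congr rfl fun i _ => ?_
        by_cases h : y = p i
        · rw [ib_pos h, if_pos ((hy i).2 ⟨hμy, h.symm⟩)]
        · rw [ib_neg h, if_neg fun h' => h ((hy i).1 h').2.symm]
      refine le_trans ?_ (le_add_of_nonneg_right hite)
      refine group_step (fun i : {i // g i = some y} => i.1) Subtype.val_injective o p φ u w L _
        hφ hsafe ε γ θ' ε' hε hγ hθ0.le r hr.le hr' ?_ ?_
      · rw [← hc]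
        rw [hμ, div_lt_iff₀ (by positivity)] at hμy
        linarith
      · intro σ i D h1 h2 h3 h4
        refine (retain_heavy o (fun j : {i // g i = some y} => p j.1) (φ i) (fun v => (hφ i v).1)
          (u i) (w σ) (3 * L) _ (p i) (fun j => ?_) D h1 h2 h3 θ' h4).mono ?_ ?_
        · rw [((hy _).1 j.2).2, ((hy _).1 i.2).2]
        · nlinarith
        · exact (min_le_right _ _).trans (min_le_left _ _)
    | none =>
      by_cases hsmall : (Fintype.card {i // g i = none} : ℝ) ≤ γ * m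
      · rw [if_pos rfl]
        refine le_trans ?_ (le_add_of_nonneg_left (by positivity))
        refine expect_le univ_nonempty fun σ _ => le_trans ?_ hsmall
        refine (sum_le_sum (g := fun _ => (1 : ℝ)) fun i _ => ?_).trans (by simp)
        have a1 := mul_le_one₀ (ib_le_one (sg (σ i) = 1))
          (ib_nonneg (Good o (p i) (φ i) (u i) (w σ) L ε)) (ib_le_one _)
        have a2 := mul_nonneg (ib_nonneg (sg (σ i) = -1))
          (ib_nonneg (Good o (p i) (φ i) (u i) (w σ) (m * (3 * L + 1)) ε'))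
        linarith
      push Not at hsmall
      refine le_trans ?_ (le_add_of_nonneg_right hite)
      refine group_step (fun i : {i // g i = none} => i.1) Subtype.val_injective o p φ u w L _
        hφ hsafe ε γ θ' ε' hε hγ hθ0.le r hr.le hr' ?_ ?_
      · have : μ ≤ Fintype.card {i // g i = none} := by linarith
        rw [hμ, div_le_iff₀ (by positivity)] at this
        linarith
      · intro σ i D h1 h2 h3 h4
        refine (retain_light o (fun j : {i // g i = none} => p j.1) (φ i) (hφ i)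
          (u i) (w σ) (3 * L) (p i) μ (fun j => ?_) D h1 h2 h3 θ' hθ0.le h4).mono ?_ ?_
        · have hj : mult (p j) ≤ μ := by
            have := j.2
            simp only [g] at this
            by_contra hc
            push Not at hc
            rw [if_pos hc] at this
            exact absurd this (by simp)
          refine le_trans ?_ hj
          simp only [mult]
          rw [← sum_subtype (univ.filter (fun i => g i = none)) (by simp)
            (fun j' => ib (p j = p j'))]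
          exact sum_le_sum_of_subset_of_nonneg (filter_subset _ _) fun _ _ _ => ib_nonneg _
        · exact Nat.mul_le_mul_right _ hcm
        · refine (min_le_right _ _).trans ((min_le_right _ _).trans ?_)
          rw [hQ, div_le_div_iff₀ (by positivity) (by positivity)]
          push_cast
          have a1 : 0 ≤ θ' ^ 2 * (μ * c) := by positivity
          nlinarith [mul_le_mul_of_nonneg_left hsmall.le a1]
  refine (sum_le_sum fun j _ => key j).trans ?_
  rw [sum_add_distrib, ← mul_sum, hcard]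
  simp
  linarith

/-- junta sizes -/
def LL (m : ℕ) : ℕ → ℕ
  | 0 => 0
  | t + 1 => m * (3 * LL m t + 1)

lemma levels (γ : ℝ) (hγ : 0 < γ) (c A : ℕ) :
    ∃ (ε : ℕ → ℝ) (m : ℕ), 0 < m ∧ (∀ t, 0 < ε t ∧ ε t ≤ 1 / 2) ∧
      ∀ t < A, StepOK γ c m (ε t) (ε (t + 1)) := by
  choose! f hf0 hf1 m₀ hm₀ using step γ hγ c
  let ε : ℕ → ℝ := fun t => f^[t] (1 / 2)
  have hs : ∀ t, ε (t + 1) = f (ε t) := fun t => Function.iterate_succ_apply' _ _ _
  have h : ∀ t, 0 < ε t ∧ ε t ≤ 1 / 2 := by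
    intro t
    induction t with
    | zero => simp [ε]
    | succ t ih => rw [hs]; exact ⟨hf0 _ ih.1, (hf1 _ ih.1).trans ih.2⟩
  refine ⟨ε, (∑ t ∈ range A, m₀ (ε t)) + 1, Nat.succ_pos _, h, fun t ht => ?_⟩
  rw [hs]
  refine hm₀ _ (h t).1 _ (le_trans ?_ (Nat.le_succ _))
  exact single_le_sum (f := fun t => m₀ (ε t)) (fun _ _ => Nat.zero_le _) (mem_range.2 ht)

/-- The score of a word at a row. -/
noncomputable def score {M Q : Type*} [Fintype M] [DecidableEq M] [Fintype Q] {Γ : Type*}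
    (o : Q) (A m : ℕ) (ε : ℕ → ℝ) (p : M) (φ : (M → Q) → ℝ) (u w : (M → Q) → Γ) : ℝ :=
  (∑ t ∈ range A, ib (Good o p φ u w (LL m t) (ε t))) / A

lemma sg_eq_ib (b : Bool) : sg b = ib (sg b = 1) - ib (sg b = -1) := by
  cases b
  · rw [ib_neg (by simp [sg]; norm_num), ib_pos (by simp [sg])]; simp [sg]
  · rw [ib_pos (by simp [sg]), ib_neg (by simp [sg]; norm_num)]; simp [sg]

lemma rademacher (γ : ℝ) (c A m : ℕ) (hA : 0 < A) (ε : ℕ → ℝ)
    (h : ∀ t < A, StepOK γ c m (ε t) (ε (t + 1)))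
    (M Q Γ : Type) [Fintype M] [DecidableEq M] [Fintype Q] [DecidableEq Q] (o : Q)
    (hQ : Fintype.card Q = c * m)
    (p : Fin m → M) (φ : Fin m → (M → Q) → ℝ) (u : Fin m → (M → Q) → Γ)
    (w : (Fin m → Bool) → (M → Q) → Γ)
    (hφ : ∀ i v, 0 ≤ φ i v ∧ φ i v ≤ 1) (hsafe : ∀ i j, Indep (φ i) (p j) ∨ Indep (φ j) (p i)) :
    𝔼 σ : Fin m → Bool, ∑ i, sg (σ i) * score o A m ε (p i) (φ i) (u i) (w σ)
      ≤ (4 * γ + 1 / A) * m := by
  have hA' : (0 : ℝ) < A := by exact_mod_cast hA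
  let G : ℕ → (Fin m → Bool) → Fin m → ℝ :=
    fun t σ i => ib (Good o (p i) (φ i) (u i) (w σ) (LL m t) (ε t))
  have h1 : ∀ (σ : Fin m → Bool) i, sg (σ i) * score o A m ε (p i) (φ i) (u i) (w σ)
      ≤ (∑ t ∈ range A, (ib (sg (σ i) = 1) * G t σ i - ib (sg (σ i) = -1) * G (t + 1) σ i)) / A
        + 1 / A := by
    intro σ i
    unfold score
    rw [← add_div, ← mul_div_assoc, div_le_div_iff_of_pos_right hA']
    have e1 := sum_range_sub (fun t => G t σ i) A
    rw [sum_sub_distrib] at e1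
    rw [sum_sub_distrib, ← mul_sum, ← mul_sum]
    nth_rewrite 1 [sg_eq_ib]
    have e2 : ib (sg (σ i) = -1) * (G A σ i - G 0 σ i) ≤ 1 := by
      have b1 := ib_nonneg (sg (σ i) = -1)
      have b2 := ib_le_one (sg (σ i) = -1)
      have b3 : G A σ i ≤ 1 := ib_le_one _
      have b4 : 0 ≤ G 0 σ i := ib_nonneg _
      nlinarith
    rw [← e1] at e2
    simp only [G] at e2 ⊢
    linarith
  refine (expect_le_expect fun σ _ => sum_le_sum fun i _ => h1 σ i).trans ?_
  simp_rw [sum_add_distrib, ← sum_div]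
  rw [expect_add_distrib, Fintype.expect_const, ← expect_div]
  simp_rw [sum_comm (s := (univ : Finset (Fin m))) (t := range A)]
  rw [expect_sum_comm]
  have h2 : ∑ t ∈ range A, 𝔼 σ : Fin m → Bool, ∑ i,
      (ib (sg (σ i) = 1) * G t σ i - ib (sg (σ i) = -1) * G (t + 1) σ i) ≤ A * (4 * γ * m) := by
    refine (sum_le_sum fun t ht => h t (mem_range.1 ht) M Q Γ o hQ p φ u w (LL m t) hφ hsafe).trans ?_
    simp
  have h3 := (div_le_iff₀' hA').2 h2
  simp only [sum_const, card_univ, Fintype.card_fin, nsmul_eq_mul, mul_one]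
  rw [add_mul, div_mul_eq_mul_div, one_mul]
  linarith

end Crest.Agent.R071
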