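import Mathlib
import Crest.Agent.R071.Step

/-!
The combinatorial core for row 71: a finite function class with small Rademacher complexity on
few points and a huge packing number.
-/

set_option autoImplicit false

open Finset
open scoped BigOperators

namespace Crest.Agent.R071

lemma count_agree {V Γ : Type*} [Fintype V] [DecidableEq V] [Fintype Γ] [DecidableEq Γ]
    [Nonempty Γ] (S : Finset (V → Γ))
    (h : ∀ w ∈ S, ∀ w' ∈ S, Fintype.card V < 2 * #{v | w v = w' v}) :
    S.card ≤ 2 ^ Fintype.card V * Fintype.card Γ ^ (Fintype.card V / 2) := by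
  rcases S.eq_empty_or_nonempty with rfl | ⟨w₀, hw₀⟩
  · simp
  have h1 := card_le_mul_card_image_of_maps_to (s := S) (t := (univ : Finset (Finset V)))
    (f := fun w => ({v | w v = w₀ v} : Finset V)) (fun _ _ => mem_univ _)
    (Fintype.card Γ ^ (Fintype.card V / 2)) (fun J _ => by
      rcases (S.filter (fun w => ({v | w v = w₀ v} : Finset V) = J)).eq_empty_or_nonempty with
        he | ⟨w, hw⟩
      · rw [he]; simp
      have hJ : Fintype.card V < 2 * J.card := by
        rw [mem_filter] at hw
        rw [← hw.2]; exact h w hw.1 w₀ hw₀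
      have hsub : S.filter (fun w => ({v | w v = w₀ v} : Finset V) = J)
          ⊆ Fintype.piFinset (fun v => if v ∈ J then {w₀ v} else univ) := by
        intro w hw
        rw [mem_filter] at hw
        rw [Fintype.mem_piFinset]
        intro v
        split_ifs with hv
        · rw [← hw.2] at hv
          simpa using hv
        · exact mem_univ _
      refine (card_le_card hsub).trans ?_
      rw [Fintype.card_piFinset]
      have : ∏ v, (if v ∈ J then ({w₀ v} : Finset Γ) else univ).card
          = Fintype.card Γ ^ (Jᶜ).card := by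
        rw [← prod_const, ← prod_mul_prod_compl J]
        rw [prod_eq_one (s := J) (fun v hv => by simp [hv]), one_mul]
        refine prod_congr rfl fun v hv => ?_
        rw [mem_compl] at hv
        simp [hv]
      rw [this]
      refine Nat.pow_le_pow_right Fintype.card_pos ?_
      rw [card_compl]
      omega)
  rw [mul_comm]
  simpa using h1

theorem core0 (δ b : ℝ) (hδ : 0 < δ) (hb : 1 ≤ b) :
    ∃ (m k : ℕ) (X W : Type) (_ : Fintype X) (_ : Fintype W) (f : W → X → ℝ),
      0 < Fintype.card X ∧ 0 < m ∧ 0 < k ∧ Nonempty W ∧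
      (∀ (x : Fin m → X) (w : (Fin m → Bool) → W),
        𝔼 σ : Fin m → Bool, max 0 (∑ i, sg (σ i) * f (w σ) (x i)) ≤ δ * m) ∧
      (∀ S : Finset W, (∀ w ∈ S, ∀ w' ∈ S, ∀ x, |f w x - f w' x| < 1) → S.card ≤ k) ∧
      b * (m * Real.log (2 * Fintype.card X)) + Real.log k < Real.log (Fintype.card W) := by
  classical
  obtain ⟨A, hA⟩ := exists_nat_gt (2 / δ)
  have hA' : (0 : ℝ) < A := lt_trans (by positivity) hA
  have hA0 : 0 < A := by exact_mod_cast hA'
  obtain ⟨c, hc⟩ := exists_nat_ge (4 * b)
  have hc0 : 0 < c := by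
    have : (0 : ℝ) < c := by linarith
    exact_mod_cast this
  obtain ⟨ε, m, hm, hε, hstep⟩ := levels (δ / 8) (by positivity) c A
  have hq : 0 < c * m := Nat.mul_pos hc0 hm
  let Q := Fin (c * m)
  let o : Q := ⟨0, hq⟩
  have : Nonempty Q := ⟨o⟩
  have hQ : Fintype.card Q = c * m := Fintype.card_fin _
  obtain ⟨t₀, -, ht₀⟩ := exists_min_image (range A) ε ⟨0, mem_range.2 hA0⟩
  set ℓ : ℕ := ∑ t ∈ range A, LL m t + 1 with hℓ
  have hq' : (0 : ℝ) < Fintype.card Q := by exact_mod_cast Fintype.card_pos
  set τ : ℝ := ε t₀ / (2 * Fintype.card Q) with hτ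
  have hτ0 : 0 < τ := by have := (hε t₀).1; positivity
  obtain ⟨M, _, _, pp, hpp⟩ := schutte ⌈ℓ / τ ^ 2⌉₊
  let V := M → Q
  set N := Fintype.card V with hN
  have hN0 : 0 < N := Fintype.card_pos
  let χ : Finset V → V → ℝ := fun J v => ib (v ∉ J)
  have hχ : ∀ J v, 0 ≤ χ J v ∧ χ J v ≤ 1 := fun J v => ⟨ib_nonneg _, ib_le_one _⟩
  choose B hB hreg using fun J => regularity (χ J) (hχ J) ℓ (Nat.succ_pos _) τ hτ0
  have hBs : ∀ J, (B J).card ≤ ⌈ℓ / τ ^ 2⌉₊ := fun J => by
    exact_mod_cast (hB J).trans (Nat.le_ceil _)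
  let φ : Finset V → V → ℝ := fun J => cond (B J) (χ J)
  let p : Finset V → M := fun J => pp (B J)
  have hφ : ∀ J v, 0 ≤ φ J v ∧ φ J v ≤ 1 := fun J => cond_bounds _ _ (hχ J)
  have hsafe : ∀ J J', Indep (φ J) (p J') ∨ Indep (φ J') (p J) := fun J J' =>
    (hpp (B J) (B J') (hBs J) (hBs J')).imp (dep_cond _ _).indep (dep_cond _ _).indep
  set C : ℝ := b * (m * ((N + 1) * Real.log 2)) + N * Real.log 2 with hC
  obtain ⟨T, hT⟩ := exists_nat_gt (Real.exp (4 * C))
  have hT' : (0 : ℝ) < T := (Real.exp_pos _).trans hT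
  have hT0 : 0 < T := by exact_mod_cast hT'
  have : Nonempty (Fin T) := ⟨⟨0, hT0⟩⟩
  have hlog2 : 0 < Real.log 2 := Real.log_pos (by norm_num)
  have hC0 : 0 ≤ C := by positivity
  have hlogT : 4 * C < Real.log T := (Real.lt_log_iff_exp_lt hT').2 hT
  let X := Σ J : Finset V, ({v : V // v (p J) = o} → Fin T)
  let uu : X → V → Option (Fin T) := fun x v =>
    if h : v (p x.1) = o then some (x.2 ⟨v, h⟩) else none
  let F : (V → Option (Fin T)) → X → ℝ := fun w x => score o A m ε (p x.1) (φ x.1) (uu x) w
  have hF0 : ∀ x, F (fun _ => none) x = 0 := by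
    intro x
    simp only [F, score]
    rw [sum_eq_zero, zero_div]
    intro t _
    apply ib_neg
    rintro ⟨E, h1, -, h3, h4⟩
    rcases E.eq_empty_or_nonempty with rfl | ⟨v, hv⟩
    · have := (hε t).1
      simp [ib_neg] at h4
      linarith
    · have := h3 _ (h1 v hv (p x.1)) (by simp)
      simp [uu] at this
  obtain ⟨h, hh⟩ : ∃ h : ℕ, c * m * h = N := ⟨_, by rw [← hQ]; exact card_H o (p ∅)⟩
  have hH : ∀ J, Fintype.card {v : V // v (p J) = o} = h := fun J => by
    have := card_H o (p J)
    rw [hQ] at this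
    exact Nat.eq_of_mul_eq_mul_left hq (this.trans hh.symm)
  have hX : Fintype.card X = 2 ^ N * T ^ h := by
    rw [Fintype.card_sigma]
    simp [hH, hN]
  refine ⟨m, 2 ^ N * T ^ (N / 2), X, V → Fin T, inferInstance, inferInstance,
    fun w => F (fun v => some (w v)), by rw [hX]; positivity, hm, by positivity, inferInstance,
    ?_, ?_, ?_⟩
  · intro x w
    let w' : (Fin m → Bool) → V → Option (Fin T) := fun σ =>
      if 0 ≤ ∑ i, sg (σ i) * F (fun v => some (w σ v)) (x i) then fun v => some (w σ v)
      else fun _ => none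
    have h1 : ∀ σ : Fin m → Bool, max 0 (∑ i, sg (σ i) * F (fun v => some (w σ v)) (x i))
        = ∑ i, sg (σ i) * F (w' σ) (x i) := by
      intro σ
      simp only [w']
      split_ifs with hσ
      · exact max_eq_right hσ
      · rw [max_eq_left (not_le.1 hσ).le]
        simp [hF0]
    simp_rw [h1]
    refine (rademacher (δ / 8) c A m hA0 ε hstep M Q (Option (Fin T)) o hQ
      (fun i => p (x i).1) (fun i => φ (x i).1) (fun i => uu (x i)) w'
      (fun i => hφ _) (fun i j => hsafe _ _)).trans ?_
    refine mul_le_mul_of_nonneg_right ?_ (Nat.cast_nonneg _)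
    have : 1 / (A : ℝ) ≤ δ / 2 := by
      rw [div_lt_iff₀ hδ] at hA
      rw [div_le_iff₀ hA']
      linarith
    linarith
  · intro S hS
    have := count_agree S (fun w hw w' hw' => ?_)
    · simpa using this
    by_contra hcon
    push Not at hcon
    set J : Finset V := {v | w v = w' v} with hJ
    let x : X := ⟨J, fun v => w v.1⟩
    have e1 : F (fun v => some (w v)) x = 1 := by
      simp only [F, score]
      rw [div_eq_one_iff_eq hA'.ne', sum_congr rfl (g := fun _ => (1 : ℝ))]
      · simp
      intro t _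
      apply ib_pos
      refine ⟨Set.univ, fun _ _ _ => trivial, ⟨∅, by simp, fun _ _ _ _ => trivial⟩,
        fun v _ hv => by simp [uu, x, hv], (hε t).2.trans ?_⟩
      have e := expect_cond_mul (B J) (χ J) (fun _ => 1) (fun _ _ _ => rfl)
      have e' : ∀ v : V, ib (v ∈ (Set.univ : Set V)) = 1 := fun v => ib_pos trivial
      simp only [e', x, φ]
      rw [e, Fintype.expect_eq_sum_div_card, le_div_iff₀ (by exact_mod_cast hN0)]
      have e2 : ∑ v, χ J v * 1 = (Jᶜ).card := by
        rw [card_eq_sum_ones, ← sum_add_sum_compl J]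
        rw [sum_eq_zero (s := J) (fun v hv => by simp [χ, ib_neg, hv]), zero_add]
        push_cast
        refine sum_congr rfl fun v hv => ?_
        rw [mem_compl] at hv
        simp [χ, ib_pos, hv]
      rw [e2, card_compl, Nat.cast_sub (card_le_univ J)]
      have : (2 : ℝ) * J.card ≤ Fintype.card V := by exact_mod_cast hcon
      simp only [V] at this ⊢
      linarith
    have e2 : F (fun v => some (w' v)) x = 0 := by
      simp only [F, score]
      rw [sum_eq_zero, zero_div]
      intro t ht
      apply ib_neg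
      rintro ⟨E, h1, h2, h3, h4⟩
      have a1 := expect_mono_le o (φ J) (fun v => (hφ J v).1) (p J) ((hsafe J J).elim id id) E h1
      have a2 := hreg J (E ∩ {v | v (p J) = o}) ((h2.inter (junta_H o (p J))).mono (by
        rw [hℓ]
        exact Nat.add_le_add_right
          (single_le_sum (f := fun t => LL m t) (fun _ _ => Nat.zero_le _) ht) 1))
      have a3 : 𝔼 v, χ J v * ib (v ∈ E ∩ {v | v (p J) = o}) = 0 := by
        refine expect_eq_zero fun v _ => ?_
        simp only [χ]
        rw [← ib_and]
        apply ib_neg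
        rintro ⟨b1, b2, b3⟩
        have b3' : v (p J) = o := b3
        have b4 := h3 v b2 b3
        simp only [uu, x, b3', dite_true, Option.some.injEq] at b4
        exact b1 (by simp [hJ, b4])
      rw [a3, zero_add] at a2
      have a4 : ε t ≤ Fintype.card Q * τ :=
        h4.trans (a1.trans (mul_le_mul_of_nonneg_left a2 hq'.le))
      have a5 : Fintype.card Q * τ = ε t₀ / 2 := by rw [hτ]; field_simp
      have a6 := ht₀ t ht
      have a7 := (hε t₀).1
      linarith
    have := hS w hw w' hw' x
    simp only [e1, e2] at this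
    simp at this
  · rw [hX]
    simp only [Fintype.card_fun, Fintype.card_fin]
    rw [← hN]
    push_cast
    rw [Real.log_mul (by norm_num) (by positivity), Real.log_mul (by positivity) (by positivity),
      Real.log_mul (by positivity) (by positivity)]
    simp only [Real.log_pow]
    have a0 : 0 ≤ Real.log T := by linarith
    have a1 : ((N / 2 : ℕ) : ℝ) ≤ N / 2 := Nat.cast_div_le
    have a2 : (c : ℝ) * m * h = N := by exact_mod_cast hh
    have a3 : b * (m * h) ≤ N / 4 := by
      rw [← a2]
      have : (0 : ℝ) ≤ m * h := by positivity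
      nlinarith
    have a4 : (1 : ℝ) ≤ N := by exact_mod_cast hN0
    have a5 := mul_le_mul_of_nonneg_right a1 a0
    have a6 := mul_le_mul_of_nonneg_right a3 a0
    have a7 := mul_le_mul_of_nonneg_right a4 a0
    nlinarith

end Crest.Agent.R071
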