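import Mathlib
import Crest.Agent.R071.Level

/-!
Symmetrization: a small Rademacher average gives an empirical approximation of every point of
the cross-polytope.
-/

set_option autoImplicit false

open Finset
open scoped BigOperators

namespace Crest.Agent.R071

lemma sg_beq (a b : Bool) : sg (a == b) = sg a * sg b := by
  cases a <;> cases b <;> simp [sg]

lemma rad_abs {X W : Type*} (f : W → X → ℝ) (m : ℕ) (δ : ℝ)
    (hR : ∀ (x : Fin m → X) (w : (Fin m → Bool) → W),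
      𝔼 σ : Fin m → Bool, max 0 (∑ i, sg (σ i) * f (w σ) (x i)) ≤ δ * m)
    (ω : Fin m → X × Bool) (w : (Fin m → Bool) → W) :
    𝔼 σ : Fin m → Bool, |∑ i, sg (σ i) * (sg (ω i).2 * f (w σ) (ω i).1)| ≤ 2 * (δ * m) := by
  have h1 : ∀ β : Fin m → Bool, 𝔼 σ : Fin m → Bool,
      max 0 (∑ i, sg (σ i) * (sg (β i) * f (w σ) (ω i).1)) ≤ δ * m := by
    intro β
    let T : (Fin m → Bool) → (Fin m → Bool) := fun σ i => (σ i == β i)
    have hT : Function.Involutive T := by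
      intro σ; funext i; simp only [T]; cases σ i <;> cases β i <;> rfl
    refine le_trans (le_of_eq ?_) (hR (fun i => (ω i).1) (fun σ => w (T σ)))
    refine Fintype.expect_equiv hT.toPerm _ _ fun σ => ?_
    simp only [Function.Involutive.coe_toPerm, hT σ]
    simp only [T, sg_beq, mul_assoc]
  have h2 := h1 (fun i => (ω i).2)
  have h3 := h1 (fun i => !(ω i).2)
  simp only [sg_not, neg_mul, mul_neg, sum_neg_distrib] at h3
  rw [two_mul]
  refine le_trans (le_of_eq ?_) (add_le_add h2 h3)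
  rw [← expect_add_distrib]
  refine expect_congr rfl fun σ _ => ?_
  rcases le_total 0 (∑ i, sg (σ i) * (sg (ω i).2 * f (w σ) (ω i).1)) with h | h
  · rw [abs_of_nonneg h, max_eq_right h, max_eq_left (neg_nonpos.2 h), add_zero]
  · rw [abs_of_nonpos h, max_eq_left h, max_eq_right (neg_nonneg.2 h), zero_add]

lemma marginal {Ω : Type*} [Fintype Ω] (π : Ω → ℝ) (hπ : ∑ a, π a = 1) {m : ℕ}
    (g : Ω → ℝ) (i : Fin m) :
    ∑ ω : Fin m → Ω, (∏ j, π (ω j)) * g (ω i) = ∑ a, π a * g a := by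
  classical
  have h := prod_univ_sum (fun _ : Fin m => (univ : Finset Ω))
    (fun j a => π a * if j = i then g a else 1)
  rw [Fintype.piFinset_univ] at h
  simp_rw [prod_mul_distrib, prod_ite_eq'] at h
  simp only [mem_univ, if_true] at h
  rw [← h, prod_eq_single i]
  · simp
  · intro j _ hj; simp [hj, hπ]
  · simp

lemma total {Ω : Type*} [Fintype Ω] (π : Ω → ℝ) (hπ : ∑ a, π a = 1) (m : ℕ) :
    ∑ ω : Fin m → Ω, (∏ j, π (ω j)) = 1 := by
  classical
  have h := prod_univ_sum (fun _ : Fin m => (univ : Finset Ω)) (fun _ a => π a)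
  rw [Fintype.piFinset_univ] at h
  rw [← h]
  simp [hπ]

lemma symmetrize {Ω W : Type*} [Fintype Ω] (π : Ω → ℝ) (hπ0 : ∀ a, 0 ≤ π a) (hπ : ∑ a, π a = 1)
    (g : W → Ω → ℝ) (m : ℕ) (ρ : ℝ)
    (hR : ∀ (ω : Fin m → Ω) (w : (Fin m → Bool) → W),
      𝔼 σ : Fin m → Bool, |∑ i, sg (σ i) * g (w σ) (ω i)| ≤ ρ) :
    ∃ ω : Fin m → Ω, ∀ w, |m * ∑ a, π a * g w a - ∑ i, g w (ω i)| ≤ 2 * ρ := by
  classical
  by_contra hcon
  push Not at hcon
  choose w hw using hcon
  let P : (Fin m → Ω) → ℝ := fun ω => ∏ j, π (ω j)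
  have hP0 : ∀ ω, 0 ≤ P ω := fun ω => prod_nonneg fun j _ => hπ0 _
  have hP1 : ∑ ω, P ω = 1 := total π hπ m
  let G : (Fin m → Ω) × (Fin m → Ω) → ℝ :=
    fun z => |∑ i, (g (w z.1) (z.2 i) - g (w z.1) (z.1 i))|
  -- lower bound
  have h1 : ∀ ω, 2 * ρ < ∑ ω', P ω' * G (ω, ω') := by
    intro ω
    refine (hw ω).trans_le ?_
    have e : m * ∑ a, π a * g (w ω) a - ∑ i, g (w ω) (ω i)
        = ∑ ω', P ω' * ∑ i, (g (w ω) (ω' i) - g (w ω) (ω i)) := by
      simp_rw [sum_sub_distrib, mul_sub]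
      rw [sum_sub_distrib, ← sum_mul, hP1, one_mul]
      simp_rw [mul_sum (s := (univ : Finset (Fin m)))]
      rw [sum_comm]
      simp only [P, marginal π hπ]
      simp
    rw [e]
    refine (abs_sum_le_sum_abs _ _).trans (le_of_eq (sum_congr rfl fun ω' _ => ?_))
    rw [abs_mul, abs_of_nonneg (hP0 ω')]
  have h2 : 2 * ρ < ∑ z : (Fin m → Ω) × (Fin m → Ω), P z.1 * P z.2 * G z := by
    rw [Fintype.sum_prod_type]
    simp_rw [mul_assoc, ← mul_sum]
    obtain ⟨ω₀, hω₀⟩ : ∃ ω₀, 0 < P ω₀ := by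
      by_contra hc
      push Not at hc
      have : ∑ ω, P ω ≤ 0 := sum_nonpos fun ω _ => hc ω
      linarith
    calc 2 * ρ = ∑ ω, P ω * (2 * ρ) := by rw [← sum_mul, hP1, one_mul]
      _ < _ := sum_lt_sum (fun ω _ => mul_le_mul_of_nonneg_left (h1 ω).le (hP0 ω))
          ⟨ω₀, mem_univ _, mul_lt_mul_of_pos_left (h1 ω₀) hω₀⟩
  let T : (Fin m → Bool) → (Fin m → Ω) × (Fin m → Ω) → (Fin m → Ω) × (Fin m → Ω) :=
    fun σ z => (fun i => if σ i then z.1 i else z.2 i, fun i => if σ i then z.2 i else z.1 i)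
  have hT : ∀ σ, Function.Involutive (T σ) := by
    rintro σ ⟨a, b⟩
    simp only [T, Prod.mk.injEq]
    constructor <;> funext i <;> cases σ i <;> simp
  have hTP : ∀ σ z, P (T σ z).1 * P (T σ z).2 = P z.1 * P z.2 := by
    intro σ z
    simp only [P, T]
    rw [← prod_mul_distrib, ← prod_mul_distrib]
    refine prod_congr rfl fun i _ => ?_
    cases σ i <;> simp [mul_comm]
  have h3 : ∀ σ, ∑ z : (Fin m → Ω) × (Fin m → Ω), P z.1 * P z.2 * G z
      = ∑ z : (Fin m → Ω) × (Fin m → Ω), P z.1 * P z.2 * G (T σ z) := by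
    intro σ
    refine Fintype.sum_equiv (hT σ).toPerm _ _ fun z => ?_
    simp only [Function.Involutive.coe_toPerm, hT σ z, hTP]
  have h4 : ∀ z, 𝔼 σ, G (T σ z) ≤ 2 * ρ := by
    intro z
    have b : ∀ σ, G (T σ z) ≤ |∑ i, sg (σ i) * g (w (T σ z).1) (z.2 i)|
        + |∑ i, sg (σ i) * g (w (T σ z).1) (z.1 i)| := by
      intro σ
      refine le_trans (le_of_eq ?_) (abs_sub _ _)
      rw [← sum_sub_distrib]
      simp only [G]
      congr 1
      refine sum_congr rfl fun i _ => ?_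
      generalize w (T σ z).1 = w₀
      simp only [T]
      cases σ i <;> simp [sg]
      ring
    refine (expect_le_expect fun σ _ => b σ).trans ?_
    rw [expect_add_distrib, two_mul]
    exact add_le_add (hR _ _) (hR _ _)
  have h5 : ∑ z : (Fin m → Ω) × (Fin m → Ω), P z.1 * P z.2 * G z ≤ 2 * ρ := by
    calc ∑ z : (Fin m → Ω) × (Fin m → Ω), P z.1 * P z.2 * G z
        = 𝔼 σ : Fin m → Bool, ∑ z : (Fin m → Ω) × (Fin m → Ω), P z.1 * P z.2 * G (T σ z) := by
          simp_rw [← h3]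
          exact (Fintype.expect_const _).symm
      _ = ∑ z : (Fin m → Ω) × (Fin m → Ω), P z.1 * P z.2 * 𝔼 σ : Fin m → Bool, G (T σ z) := by
          rw [expect_sum_comm]
          simp_rw [mul_expect]
      _ ≤ ∑ z : (Fin m → Ω) × (Fin m → Ω), P z.1 * P z.2 * (2 * ρ) :=
          sum_le_sum fun z _ => mul_le_mul_of_nonneg_left (h4 z) (mul_nonneg (hP0 _) (hP0 _))
      _ = 2 * ρ := by
          rw [← sum_mul, Fintype.sum_prod_type]
          simp_rw [← mul_sum, hP1, mul_one]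
          rw [hP1, one_mul]
  linarith

lemma sample {X W : Type*} [Fintype X] [Nonempty X] (f : W → X → ℝ) (m : ℕ) (hm : 0 < m)
    (δ : ℝ)
    (hR : ∀ (x : Fin m → X) (w : (Fin m → Bool) → W),
      𝔼 σ : Fin m → Bool, max 0 (∑ i, sg (σ i) * f (w σ) (x i)) ≤ δ * m)
    (y : X → ℝ) (hy : ∑ x, |y x| ≤ 1) :
    ∃ ω : Fin m → X × Bool, ∀ w,
      |∑ x, f w x * y x - (∑ i, sg (ω i).2 * f w (ω i).1) / m| ≤ 4 * δ := by
  have hn : (0 : ℝ) < Fintype.card X := by exact_mod_cast Fintype.card_pos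
  have hm' : (0 : ℝ) < m := by exact_mod_cast hm
  set κ : ℝ := (1 - ∑ x, |y x|) / (2 * Fintype.card X) with hκ
  have hκ0 : 0 ≤ κ := div_nonneg (by linarith) (by positivity)
  let π : X × Bool → ℝ := fun a => (|y a.1| + sg a.2 * y a.1) / 2 + κ
  have hπ0 : ∀ a, 0 ≤ π a := by
    rintro ⟨x, b⟩
    have h1 := le_abs_self (y x)
    have h2 := neg_abs_le (y x)
    cases b <;> simp only [π, sg] <;> simp <;> linarith
  have hπ : ∑ a, π a = 1 := by
    rw [Fintype.sum_prod_type]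
    have : ∀ x, ∑ b, π (x, b) = |y x| + 2 * κ := by
      intro x; simp [π, sg]; ring
    simp_rw [this]
    rw [sum_add_distrib, sum_const, card_univ, nsmul_eq_mul, hκ]
    field_simp
    ring
  obtain ⟨ω, hω⟩ := symmetrize π hπ0 hπ (fun w a => sg a.2 * f w a.1) m _ (rad_abs f m δ hR)
  refine ⟨ω, fun w => ?_⟩
  have h1 := hω w
  have h2 : ∑ a, π a * (sg a.2 * f w a.1) = ∑ x, f w x * y x := by
    rw [Fintype.sum_prod_type]
    refine sum_congr rfl fun x _ => ?_
    simp [π, sg]; ring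
  rw [h2] at h1
  have h3 : ∑ x, f w x * y x - (∑ i, sg (ω i).2 * f w (ω i).1) / m
      = (m * ∑ x, f w x * y x - ∑ i, sg (ω i).2 * f w (ω i).1) / m := by
    field_simp
  rw [h3, abs_div, abs_of_pos hm', div_le_iff₀ hm']
  linarith

end Crest.Agent.R071
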